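import Vale.Agent.P141.H437.GenCen
import Vale.Agent.P141.H650.Spec.CE1
import Vale.Agent.P141.H501.CFglue

/-!
# P141, squad CE: from the price of the centre atoms to generic uniformity on the boxes

* `fm_cen`: a property of the push-forwards along `fc r` of the centre atoms in any position
  holds for every permuted form;
* `prC_of_cst`: the price `PrC` from a bound of the normalised cost;
* `genOut_of_cen : H650.CenSt → H501.GenOut`, `cfOut_of_cen`, `ceOut_of_cen`.
-/

namespace Vale.Agent.P141.H437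

open Finset
open Vale.Agent.P141.H315 (Grid dot dot_self_nonneg)
open Vale.Agent.P141.PL (Pt el fc)
open Vale.Agent.P141.PL.H315 (cube3 iv)
open Vale.Agent.P141.PL.H95 (gr shf)
open Vale.Agent.P141.PL.H321 (t12 t23)
open Vale.Agent.P141.H639 (pfw cenf Dis co)
open Vale.Agent.P141.H736 (CW cost)
open Vale.Agent.P141.H782 (gb)
open Vale.Agent.P141.H347.Gs (Par gfL kap GFam Ex e2 e2_pos e2_le e2_mul)
open Vale.Agent.P141.H414 (jf cf)
open Vale.Agent.P141.H769 (lft)
open Vale.Agent.P141.H971 (Cen cen GenU)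

noncomputable section

/-- the potentials may be increased -/
theorem cen_mono {V : Type*} [NormedAddCommGroup V] [InnerProductSpace ℝ V] {A B C : Finset ℤ}
    {h p e K K' : ℝ} {a : ℤ → ℤ → ℝ} {u v : ℤ → ℤ → V} (hK : K ≤ K')
    (H : Cen A B C h p e K a u v) : Cen A B C h p e K' a u v where
  a_le := H.a_le
  a_n2 := H.a_n2
  a_row := H.a_row
  u_le := H.u_le
  v_le := H.v_le
  u_en := H.u_en
  v_en := H.v_en
  u_col := H.u_col
  u_pot := fun z hz w => (H.u_pot z hz w).trans (mul_le_mul_of_nonneg_right hK (sq_nonneg _))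
  v_pot := fun z hz w => (H.v_pot z hz w).trans (mul_le_mul_of_nonneg_right hK (sq_nonneg _))

/-- the exchange of the first two positions -/
def p12 : Fin 3 → Fin 3 := ![1, 0, 2]

/-- the exchange of the last two positions -/
def p23 : Fin 3 → Fin 3 := ![0, 2, 1]

theorem co_p12 (j : Fin 3) (y : Pt) : co (p12 j) (t12 y) = co j y := by fin_cases j <;> rfl

theorem co_p12' (j : Fin 3) (y : Pt) : co (p12 j) y = co j (t12 y) := by fin_cases j <;> rfl

theorem co_p23 (j : Fin 3) (y : Pt) : co (p23 j) (t23 y) = co j y := by fin_cases j <;> rfl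

theorem co_p23' (j : Fin 3) (y : Pt) : co (p23 j) y = co j (t23 y) := by fin_cases j <;> rfl

theorem dis_p12 {l m n : Fin 3} (h : Dis l m n) : Dis (p12 l) (p12 m) (p12 n) := by
  revert l m n; decide

theorem dis_p23 {l m n : Fin 3} (h : Dis l m n) : Dis (p23 l) (p23 m) (p23 n) := by
  revert l m n; decide

section

variable {V : Type*} [NormedAddCommGroup V] [InnerProductSpace ℝ V]

theorem cenf_p12 (l m n : Fin 3) (g : ℤ → ℤ → ℝ) (u v : ℤ → ℤ → V) :
    (fun y => cenf l m n g u v (t12 y)) = cenf (p12 l) (p12 m) (p12 n) g u v := by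
  funext y
  unfold cenf
  rw [co_p12', co_p12', co_p12']

theorem cenf_p23 (l m n : Fin 3) (g : ℤ → ℤ → ℝ) (u v : ℤ → ℤ → V) :
    (fun y => cenf l m n g u v (t23 y)) = cenf (p23 l) (p23 m) (p23 n) g u v := by
  funext y
  unfold cenf
  rw [co_p23', co_p23', co_p23']

/-- **Any permuted form**: a property of the push-forwards of the centre atoms. -/
theorem fm_cen {r : Fin 4} {k : ℕ} {Φ : (ℤ → ℝ) → Prop} {h p e K : ℝ} {g : ℤ → ℤ → ℝ}
    {u v : ℤ → ℤ → V}
    (H : ∀ (q : Pt) (l m n : Fin 3), Dis l m n →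
      Cen (iv k (co m q)) (iv k (co n q)) (iv k (co l q)) h p e K g u v →
      Φ (pfw (fc r) k q (cenf l m n g u v)))
    {c : Pt} (hc : Fm r c) : ∀ (q : Pt) (l m n : Fin 3), Dis l m n →
      Cen (iv k (co m q)) (iv k (co n q)) (iv k (co l q)) h p e K g u v →
      Φ (pfw c k q (cenf l m n g u v)) := by
  refine hc (fun c => ∀ (q : Pt) (l m n : Fin 3), Dis l m n →
      Cen (iv k (co m q)) (iv k (co n q)) (iv k (co l q)) h p e K g u v →
      Φ (pfw c k q (cenf l m n g u v))) H ?_ ?_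
  · intro d hd q l m n hl hC
    rw [pfw_t12, cenf_p12]
    refine hd (t12 q) _ _ _ (dis_p12 hl) ?_
    rw [co_p12, co_p12, co_p12]
    exact hC
  · intro d hd q l m n hl hC
    rw [pfw_t23, cenf_p23]
    refine hd (t23 q) _ _ _ (dis_p23 hl) ?_
    rw [co_p23, co_p23, co_p23]
    exact hC

end

/-- the price from a bound of the normalised cost, all positions -/
theorem prC_of_cst {p : Par} {σ : ℤ} {r : Fin 4} {k : ℕ} {s : ℤ} {δ e P L : ℝ}
    (hL : δ ^ 2 ≤ L)
    (H : ∀ (q : Pt) (l m n : Fin 3), Dis l m n →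
      ∀ (κ : Type) [Fintype κ] (h t : ℝ) (g : ℤ → ℤ → ℝ) (u v : ℤ → ℤ → EuclideanSpace ℝ κ),
      0 ≤ h → 0 ≤ t → Cen (iv k (co m q)) (iv k (co n q)) (iv k (co l q)) h t e (L * (h * t)) g u v →
      (p.cw σ r).cst (pfw (fc r) k q (cenf l m n g u v)) k ((gr 7 σ).cube k s) ≤
        P * (8 ^ k * (e * (√h * (t ^ 2 * √t)))))
    {c : Pt} (hc : Fm r c) (q : Pt) : PrC p σ r k s c q δ e P := by
  intro a h t hh ht κ _ u v hC z o ho
  have hC' : Cen (iv k (co 1 q)) (iv k (co 2 q)) (iv k (co 0 q)) h t e (L * (h * t)) a u v :=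
    cen_mono (mul_le_mul_of_nonneg_right hL (mul_nonneg hh ht)) hC
  have h1 := fm_cen (r := r) (k := k)
    (Φ := fun ψ => (p.cw σ r).cst ψ k ((gr 7 σ).cube k s) ≤
      P * (8 ^ k * (e * (√h * (t ^ 2 * √t)))))
    (fun q l m n hl hC => H q l m n hl κ h t a u v hh ht hC) hc q 0 1 2 (by decide) hC'
  obtain ⟨b, hb⟩ : ∃ b : Bool, (if b then (1 : ℤ) else -1) = o := by
    rcases ho with h | h
    · exact ⟨true, by simp [h]⟩
    · exact ⟨false, by simp [h]⟩
  have h2 := (p.cw σ r).cost_le (z, b) (pfw c k q (cenf 0 1 2 a u v)) k ((gr 7 σ).cube k s)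
  have e1 : (p.cw σ r).o (z, b) = o := hb
  rw [e1] at h2
  refine h2.trans ?_
  show (1 : ℝ) * _ ≤ _
  rw [one_mul]
  exact h1

/-- **Generic uniformity on the boxes from the price of the centre atoms.** -/
theorem genOut_of_cen (h : H650.CenSt) : H501.GenOut := by
  obtain ⟨gam, c1, hgam, hc1, h⟩ := h
  set μ : ℝ := min gam (min c1 1) with hμ
  have hμ0 : 0 < μ := lt_min hgam (lt_min hc1 one_pos)
  have hμ1 : μ ≤ gam := min_le_left _ _
  have hμ2 : μ ≤ c1 := (min_le_right _ _).trans (min_le_left _ _)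
  have hμ3 : μ ≤ 1 := (min_le_right _ _).trans (min_le_right _ _)
  refine ⟨μ / 100, μ / 100, 2, 2, 99 * μ / 100, by positivity, le_rfl, by linarith, by norm_num,
    by norm_num, by linarith, fun e heg hec hea hea' => ?_⟩
  have hK := e.K_pos
  obtain ⟨C, hC, h⟩ := h (μ / 100) (by positivity) (by linarith) e.K (e.K ^ 2) (128 * e.K) hK
    (sq_nonneg _) (by positivity)
  refine ⟨8 * (C / (128 * e.K)) + 90, by positivity, fun n b j hj r k s hk => ?_⟩
  intro F hF hU i p hip q
  have hE : (0 : ℝ) ≤ 128 * e.K := by positivity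
  set P : ℝ := C / (128 * e.K) * e2 (-(1 + gam)) j with hP
  have hpr : ∀ {c : Pt}, Fm r c → ∀ q : Pt,
      PrC (e.mp j) (shf (n + 7) b) r k s c q (e.K * e2 (-1) j) (128 * e.K) P := by
    intro c hc q
    refine prC_of_cst (L := e.K ^ 2 * e2 (-(2 - μ / 100)) j) ?_ ?_ hc q
    · rw [mul_pow, sq (e2 _ _), e2_mul]
      refine mul_le_mul_of_nonneg_left (e2_le ?_ j) (sq_nonneg _)
      linarith
    · intro q l m n' hl κ _ hh t g u v hh0 ht0 hCen
      have h1 := h e rfl hec (shf (n + 7) b) r j k s q l m n' hl (EuclideanSpace ℝ κ) hh t g u v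
        hh0 ht0 hCen
      refine h1.trans (le_of_eq ?_)
      rw [hP]
      field_simp
  have hρ : e.K * (8 * (e.mp j).θ * P + 18 * (4 * (e.mp j).φ + (e.mp j).φ')) ≤
      (8 * (C / (128 * e.K)) + 90) * e2 (-(99 * μ / 100)) j * (e.K * e2 (-1) j) := by
    have e1 : (e.mp j).θ = e2 (μ / 100) j := by rw [← heg]; rfl
    have e3 : (e.mp j).φ = e2 (-2) j := by rw [← hea]; rfl
    have e4 : (e.mp j).φ' = e2 (-2) j := by rw [← hea']; rfl
    rw [e1, e3, e4, hP]
    have t1 : e2 (μ / 100) j * e2 (-(1 + gam)) j ≤ e2 (-(99 * μ / 100)) j * e2 (-1) j := by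
      rw [e2_mul, e2_mul]
      refine e2_le ?_ j
      linarith
    have t2 : e2 (-2) j ≤ e2 (-(99 * μ / 100)) j * e2 (-1) j := by
      rw [e2_mul]
      refine e2_le ?_ j
      linarith
    have hC' : 0 ≤ C / (128 * e.K) := by positivity
    calc e.K * (8 * e2 (μ / 100) j * (C / (128 * e.K) * e2 (-(1 + gam)) j) +
          18 * (4 * e2 (-2) j + e2 (-2) j)) =
        e.K * (8 * (C / (128 * e.K)) * (e2 (μ / 100) j * e2 (-(1 + gam)) j) +
          90 * e2 (-2) j) := by ring
      _ ≤ e.K * (8 * (C / (128 * e.K)) * (e2 (-(99 * μ / 100)) j * e2 (-1) j) +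
          90 * (e2 (-(99 * μ / 100)) j * e2 (-1) j)) := by gcongr
      _ = _ := by ring
  subst hip
  have hc := fm_cf i p
  exact ⟨genU_of_price (e.mp j) hK.le hU hc hE (hpr hc q) hρ,
    genU_of_price' (e.mp j) hK.le hU hc hE (hpr hc.t23 (t23 q)) hρ⟩

/-- **The fourth moments of the centre-free companions.** -/
theorem cfOut_of_cen (h : H650.CenSt) : H501.CFOut := H501.cfOut_of_gen (genOut_of_cen h)

/-- **The output of CE from the price of the centre atoms.** -/
theorem ceOut_of_cen (h : H650.CenSt) : H501.CEOut := H501.ceOut_of_cf (cfOut_of_cen h)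

end

end Vale.Agent.P141.H437
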