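import Vale.Agent.P141.H437.EnMo

/-!
# P141, line W, squad CE, module C9, second half: from one cell and one box to the slots

`CfCell`: fourth moments of the gauged slices of a static function cut to ONE alive cell of scale
`k`, on the boxes of the SAME scale.  `mo4_of_cell`: then the function killed outside the alive
cells has the moments `Mo4` of the letters of (E) (the input of scale `k + 1` on the boxes of scale
`k`), with a constant: zero extension of the gauge to the parent box, two cells per box.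
`msl_of_cell`: the slots `MSl`; `costR_cell`: the cost.
-/

namespace Vale.Agent.P141.H437

open Finset Vale.Agent.P141.PL Vale.Agent.P141.H48 Vale.Agent.P141.H414
open Vale.Agent.P141.PL.H315 (cube3 atm Tri avg avg_nonneg mem_cube3)
open Vale.Agent.P141.PL.H318 (ixs mem_gs two_cells_el csz)
open Vale.Agent.P141.PL.H95 (gr)
open Vale.Agent.P141.H922 (n2 n4 wP wP_nonneg n2_nonneg n4_nonneg)
open Vale.Agent.P141.H769 (mo4f mo4 lft g2 sl)
open Vale.Agent.P141.H550 (avg_congr)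
open Vale.Agent.P141.H347.Tr (CostR)

noncomputable section

/-! ### The Schatten triangle inequality in the function -/

/-- the fourth power of the normalised `S⁴` norm of a matrix on `B × C` -/
def q4 (B C : Finset ℤ) (M : ℤ → ℤ → ℝ) : ℝ :=
  avg B fun x => avg B fun c => (avg C fun y => M x y * M c y) ^ 2

theorem q4_nonneg (B C : Finset ℤ) (M : ℤ → ℤ → ℝ) : 0 ≤ q4 B C M :=
  avg_nonneg fun _ _ => avg_nonneg fun _ _ => sq_nonneg _

theorem q4_eq_mo4 (B C : Finset ℤ) (M : ℤ → ℤ → ℝ) :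
    q4 B C M = mo4 B C {0} M (fun _ => 1) := by
  unfold q4 mo4 g2 sl
  rw [show avg ({0} : Finset ℤ) = fun f : ℤ → ℝ => f 0 from funext fun f => by
    unfold avg; simp]
  simp only [mul_one]

theorem q4_add {B C : Finset ℤ} {M M1 M2 : ℤ → ℤ → ℝ}
    (h : ∀ x ∈ B, ∀ y ∈ C, M x y = M1 x y + M2 x y) :
    q4 B C M ≤ 8 * (q4 B C M1 + q4 B C M2) := by
  have h1 := Vale.Agent.P141.H573.mo4_sum_le (univ : Finset Bool) B C {0} (fun _ => 1) M
    (fun b => if b then M1 else M2) (fun x hx y hy => by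
      rw [h x hx y hy]
      simp)
  simp only [Fintype.sum_bool, if_true, Bool.false_eq_true, if_false] at h1
  rw [← q4_eq_mo4, ← q4_eq_mo4, ← q4_eq_mo4] at h1
  have e4 : ∀ X : ℝ, 0 ≤ X → √√X ^ 4 = X := fun X hX => by
    rw [show √√X ^ 4 = (√√X ^ 2) ^ 2 by ring, Real.sq_sqrt (Real.sqrt_nonneg _), Real.sq_sqrt hX]
  have h2 := pow_le_pow_left₀ (Real.sqrt_nonneg _) h1 4
  rw [e4 _ (q4_nonneg B C M)] at h2
  have h3 := e4 _ (q4_nonneg B C M1)
  have h4 := e4 _ (q4_nonneg B C M2)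
  set u := √√(q4 B C M1) with hu
  set v := √√(q4 B C M2) with hv
  have hu0 : 0 ≤ u := Real.sqrt_nonneg _
  have hv0 : 0 ≤ v := Real.sqrt_nonneg _
  have h5 : (u + v) ^ 4 ≤ 8 * (u ^ 4 + v ^ 4) := by
    have h6 : (u + v) ^ 2 ≤ 2 * (u ^ 2 + v ^ 2) := by nlinarith [sq_nonneg (u - v)]
    have h7 : (u ^ 2 + v ^ 2) ^ 2 ≤ 2 * (u ^ 4 + v ^ 4) := by
      nlinarith [sq_nonneg (u ^ 2 - v ^ 2)]
    have h8 := pow_le_pow_left₀ (sq_nonneg (u + v)) h6 2
    nlinarith
  rw [h3, h4] at h5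
  exact h2.trans h5

theorem mo4f_eq_q4 (A B C : Finset ℤ) (a : ℤ → ℤ → ℝ) (G : Pt → ℝ) :
    mo4f A B C a G = avg A fun z => q4 B C fun x y => a x y * G (z, x, y) := rfl

theorem mo4f_add {A B C : Finset ℤ} (a : ℤ → ℤ → ℝ) {G G1 G2 : Pt → ℝ}
    (h : ∀ z ∈ A, ∀ x ∈ B, ∀ y ∈ C, G (z, x, y) = G1 (z, x, y) + G2 (z, x, y)) :
    mo4f A B C a G ≤ 8 * (mo4f A B C a G1 + mo4f A B C a G2) := by
  rw [mo4f_eq_q4, mo4f_eq_q4, mo4f_eq_q4]
  have h1 : (avg A fun z => q4 B C fun x y => a x y * G (z, x, y)) ≤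
      avg A fun z => 8 * ((q4 B C fun x y => a x y * G1 (z, x, y)) +
        q4 B C fun x y => a x y * G2 (z, x, y)) := by
    unfold avg
    refine mul_le_mul_of_nonneg_left (sum_le_sum fun z hz => ?_) (by positivity)
    refine q4_add fun x hx y hy => ?_
    rw [h z hz x hx y hy]; ring
  refine h1.trans (le_of_eq ?_)
  unfold avg
  rw [← mul_sum, sum_add_distrib]
  ring

theorem mo4f_congr {A B C : Finset ℤ} (a : ℤ → ℤ → ℝ) {G G1 : Pt → ℝ}
    (h : ∀ z ∈ A, ∀ x ∈ B, ∀ y ∈ C, G (z, x, y) = G1 (z, x, y)) :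
    mo4f A B C a G = mo4f A B C a G1 := by
  unfold mo4f
  refine avg_congr fun z hz => avg_congr fun x hx => avg_congr fun c hc => ?_
  congr 1
  refine avg_congr fun y hy => ?_
  rw [h z hz x hx y hy, h z hz c hc y hy]

theorem mo4f_zero (A B C : Finset ℤ) (a : ℤ → ℤ → ℝ) : mo4f A B C a (fun _ => 0) = 0 := by
  unfold mo4f avg
  simp

theorem mo4f_nonneg (A B C : Finset ℤ) (a : ℤ → ℤ → ℝ) (G : Pt → ℝ) : 0 ≤ mo4f A B C a G :=
  avg_nonneg fun _ _ => q4_nonneg _ _ _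

/-! ### Zero extension of the gauge to the parent box -/

section cut

variable {X : Type*} [DecidableEq X]

theorem avg_half {S S' : Finset X} (h : S ⊆ S') (hc : (S'.card : ℝ) = 2 * S.card) (g : X → ℝ) :
    avg S' (fun x => if x ∈ S then g x else 0) = 1 / 2 * avg S g := by
  unfold avg
  rw [← sum_filter, filter_mem_eq_inter, inter_eq_right.mpr h, hc, mul_inv]
  ring

theorem avg_half_le {S S' : Finset X} (h : S ⊆ S') (hc : (S'.card : ℝ) = 2 * S.card) {g : X → ℝ}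
    (hg : ∀ x, 0 ≤ g x) : 1 / 2 * avg S g ≤ avg S' g := by
  rw [← avg_half h hc]
  unfold avg
  refine mul_le_mul_of_nonneg_left (sum_le_sum fun x _ => ?_) (by positivity)
  split_ifs
  · exact le_rfl
  · exact hg x

end cut

open scoped Classical in
/-- the gauge cut to a square -/
def cutE (B C : Finset ℤ) (a : ℤ → ℤ → ℝ) (x y : ℤ) : ℝ := if x ∈ B ∧ y ∈ C then a x y else 0

theorem mo4f_sub {A B C A' B' C' : Finset ℤ} (hA : A ⊆ A') (hB : B ⊆ B') (hC : C ⊆ C')
    (cA : (A'.card : ℝ) = 2 * A.card) (cB : (B'.card : ℝ) = 2 * B.card)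
    (cC : (C'.card : ℝ) = 2 * C.card) (a : ℤ → ℤ → ℝ) (G : Pt → ℝ) :
    mo4f A B C a G ≤ 32 * mo4f A' B' C' (cutE B C a) G := by
  have hq : ∀ z, q4 B' C' (fun x y => cutE B C a x y * G (z, x, y)) =
      1 / 16 * q4 B C fun x y => a x y * G (z, x, y) := by
    intro z
    have e1 : ∀ x c, (avg C' fun y => (cutE B C a x y * G (z, x, y)) *
        (cutE B C a c y * G (z, c, y))) =
        if x ∈ B then (if c ∈ B then 1 / 2 * avg C fun y => (a x y * G (z, x, y)) *
          (a c y * G (z, c, y)) else 0) else 0 := by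
      intro x c
      by_cases hx : x ∈ B
      · by_cases hc : c ∈ B
        · rw [if_pos hx, if_pos hc, ← avg_half hC cC]
          refine avg_congr fun y _ => ?_
          unfold cutE
          by_cases hy : y ∈ C
          · simp [hx, hc, hy]
          · simp [hy]
        · rw [if_pos hx, if_neg hc]
          unfold avg cutE
          simp [hc]
      · rw [if_neg hx]
        unfold avg cutE
        simp [hx]
    unfold q4
    have e2 : ∀ x, (avg B' fun c => (avg C' fun y => (cutE B C a x y * G (z, x, y)) *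
        (cutE B C a c y * G (z, c, y))) ^ 2) = if x ∈ B then 1 / 8 * avg B fun c =>
          (avg C fun y => (a x y * G (z, x, y)) * (a c y * G (z, c, y))) ^ 2 else 0 := by
      intro x
      by_cases hx : x ∈ B
      · rw [if_pos hx]
        have e3 : (fun c => (avg C' fun y => (cutE B C a x y * G (z, x, y)) *
            (cutE B C a c y * G (z, c, y))) ^ 2) = fun c => if c ∈ B then
              1 / 4 * (avg C fun y => (a x y * G (z, x, y)) * (a c y * G (z, c, y))) ^ 2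
              else 0 := by
          funext c
          rw [e1, if_pos hx]
          split_ifs
          · ring
          · ring
        rw [e3, avg_half hB cB]
        unfold avg
        rw [← mul_sum]
        ring
      · rw [if_neg hx]
        have e3 : (fun c => (avg C' fun y => (cutE B C a x y * G (z, x, y)) *
            (cutE B C a c y * G (z, c, y))) ^ 2) = fun _ => 0 := by
          funext c
          rw [e1, if_neg hx]
          ring
        rw [e3]
        unfold avg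
        simp
    rw [show (fun x => avg B' fun c => (avg C' fun y => (cutE B C a x y * G (z, x, y)) *
        (cutE B C a c y * G (z, c, y))) ^ 2) = _ from funext e2, avg_half hB cB]
    unfold avg
    rw [← mul_sum]
    ring
  rw [mo4f_eq_q4, mo4f_eq_q4, show (fun z => q4 B' C' fun x y => cutE B C a x y * G (z, x, y)) =
    _ from funext hq]
  have h1 := avg_half_le hA cA (g := fun z => 1 / 16 * q4 B C fun x y => a x y * G (z, x, y))
    (fun z => mul_nonneg (by norm_num) (q4_nonneg _ _ _))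
  have h2 : (avg A fun z => 1 / 16 * q4 B C fun x y => a x y * G (z, x, y)) =
      1 / 16 * avg A fun z => q4 B C fun x y => a x y * G (z, x, y) := by
    unfold avg
    rw [← mul_sum]
    ring
  rw [h2] at h1
  linarith

/-! ### One alive cell, one box of the same scale -/

/-- **Moments on one cell and one box**: `f` cut to an alive cell of scale `k`, the lift under the
form `c` on the boxes of scale `k`, every gauge. -/
def CfCell (c0 : ℕ) (σ : ℤ) (al : ℕ → ℤ → Prop) (n : ℕ) (c : Pt) (M : ℝ) (f : ℤ → ℝ) : Prop :=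
  ∀ k, 1 ≤ k → k ≤ n → ∀ s, al k s → ∀ (m : Pt) (a : ℤ → ℤ → ℝ),
    mo4f (iv k m.1) (iv k m.2.1) (iv k m.2.2) a (lft c ((gr c0 σ).cube k s) f) ≤
      M * (n2 (iv k m.2.1 ×ˢ iv k m.2.2) (fun p => a p.1 p.2) ^ 2 *
        n4 (iv k m.2.1 ×ˢ iv k m.2.2) (fun p => a p.1 p.2) ^ 2)

theorem card_ivR (k : ℕ) (m : ℤ) : ((iv k m).card : ℝ) = 2 ^ k := by
  rw [card_iv]; push_cast; ring

theorem card_iv_up (k : ℕ) (m m' : ℤ) : ((iv (k + 1) m').card : ℝ) = 2 * (iv k m).card := by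
  rw [card_ivR, card_ivR, pow_succ]; ring

/-- two cells on one box of the same scale -/
theorem mo4_two_cells {c0 : ℕ} {σ : ℤ} {al : ℕ → ℤ → Prop} (hal : Alv c0 σ al) {c : Pt}
    (hc : csz c ≤ 2 ^ c0) {n : ℕ} {M : ℝ} (hM : 0 ≤ M) {f : ℤ → ℝ}
    (h : CfCell c0 σ al n c M f) {k : ℕ} (hk1 : 1 ≤ k) (hk : k ≤ n) (m : Pt) (a : ℤ → ℤ → ℝ) :
    mo4f (iv k m.1) (iv k m.2.1) (iv k m.2.2) a (fun p => kl al f k (el c p)) ≤
      16 * M * (n2 (iv k m.2.1 ×ˢ iv k m.2.2) (fun p => a p.1 p.2) ^ 2 *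
        n4 (iv k m.2.1 ×ˢ iv k m.2.2) (fun p => a p.1 p.2) ^ 2) := by
  classical
  set NN := n2 (iv k m.2.1 ×ˢ iv k m.2.2) (fun p => a p.1 p.2) ^ 2 *
    n4 (iv k m.2.1 ×ˢ iv k m.2.2) (fun p => a p.1 p.2) ^ 2 with hNN
  have hNN0 : 0 ≤ NN := by positivity
  obtain ⟨j, hj⟩ := two_cells_el (c0 := c0) (σ := σ) hc k
    ((2 ^ k * m.1, 2 ^ k * m.2.1, 2 ^ k * m.2.2) : Pt)
  have hbox : ∀ z ∈ iv k m.1, ∀ x ∈ iv k m.2.1, ∀ y ∈ iv k m.2.2,
      ((z, x, y) : Pt) ∈ cube3 k ((2 ^ k * m.1, 2 ^ k * m.2.1, 2 ^ k * m.2.2) : Pt) := by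
    intro z hz x hx y hy
    rw [mem_cube3, H317.iv_eq_iv, H317.iv_eq_iv, H317.iv_eq_iv]
    simp only [ix_corner]
    exact ⟨hz, hx, hy⟩
  have key : ∀ j' : ℤ, mo4f (iv k m.1) (iv k m.2.1) (iv k m.2.2) a
      (fun p => if ixs c0 σ k (el c p) = j' then kl al f k (el c p) else 0) ≤ M * NN := by
    intro j'
    by_cases hex : ∃ s, ixs c0 σ k s = j' ∧ al k s
    · obtain ⟨s, hs, hAs⟩ := hex
      refine (le_of_eq ?_).trans (h k hk1 hk s hAs m a)
      refine mo4f_congr a fun z _ x _ y _ => ?_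
      unfold lft
      by_cases hy : ixs c0 σ k (el c (z, x, y)) = j'
      · have h2 : el c (z, x, y) ∈ (gr c0 σ).cube k s := mem_gs.mpr (by rw [hy, hs])
        have h3 : al k (el c (z, x, y)) :=
          (hal.const k s (el c (z, x, y)) (by rw [hy, hs])).mpr hAs
        rw [if_pos hy, if_pos h2]
        unfold kl
        rw [if_pos h3]
      · have h2 : el c (z, x, y) ∉ (gr c0 σ).cube k s := fun h => hy (by rw [mem_gs.mp h, hs])
        rw [if_neg hy, if_neg h2]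
    · refine le_of_eq_of_le ((mo4f_congr a (G1 := fun _ => 0) fun z _ x _ y _ => ?_).trans
        (mo4f_zero _ _ _ a)) (mul_nonneg hM hNN0)
      by_cases hy : ixs c0 σ k (el c (z, x, y)) = j'
      · have h3 : ¬ al k (el c (z, x, y)) := fun h => hex ⟨el c (z, x, y), hy, h⟩
        rw [if_pos hy]
        unfold kl
        rw [if_neg h3]
      · rw [if_neg hy]
  have h1 := mo4f_add (A := iv k m.1) (B := iv k m.2.1) (C := iv k m.2.2) a
    (G := fun p => kl al f k (el c p))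
    (G1 := fun p => if ixs c0 σ k (el c p) = j then kl al f k (el c p) else 0)
    (G2 := fun p => if ixs c0 σ k (el c p) = j + 1 then kl al f k (el c p) else 0)
    (fun z hz x hx y hy => by
      rcases hj _ (hbox z hz x hx y hy) with h | h
      · have h' : ixs c0 σ k (el c (z, x, y)) ≠ j + 1 := by omega
        rw [if_pos h, if_neg h', add_zero]
      · have h' : ixs c0 σ k (el c (z, x, y)) ≠ j := by omega
        rw [if_neg h', if_pos h, zero_add])
  have h2 := key j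
  have h3 := key (j + 1)
  linarith

/-- **From one cell and one box of the same scale to the slots of (E).** -/
theorem mo4_of_cell {c0 : ℕ} {σ : ℤ} {al : ℕ → ℤ → Prop} (hal : Alv c0 σ al) {c : Pt}
    (hc : csz c ≤ 2 ^ c0) {n : ℕ} {M : ℝ} (hM : 0 ≤ M) {f : ℤ → ℝ}
    (h : CfCell c0 σ al n c M f) : Mo4 n (128 * M) (fun k p => kl al f k (el c p)) := by
  intro k hk m a
  set m' : Pt := (m.1 / 2, m.2.1 / 2, m.2.2 / 2) with hm'
  have hB := Vale.Agent.P141.H205.iv_sub_up k m.2.1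
  have hC := Vale.Agent.P141.H205.iv_sub_up k m.2.2
  have h1 := mo4f_sub (Vale.Agent.P141.H205.iv_sub_up k m.1) hB hC (card_iv_up k m.1 (m.1 / 2))
    (card_iv_up k m.2.1 (m.2.1 / 2)) (card_iv_up k m.2.2 (m.2.2 / 2)) a
    (fun p => kl al f (k + 1) (el c p))
  have h2 := mo4_two_cells hal hc hM h (Nat.le_add_left 1 k) (Nat.succ_le_of_lt hk) m'
    (cutE (iv k m.2.1) (iv k m.2.2) a)
  refine h1.trans ((mul_le_mul_of_nonneg_left h2 (by norm_num)).trans ?_)
  have hs : iv k m.2.1 ×ˢ iv k m.2.2 ⊆ iv (k + 1) (m.2.1 / 2) ×ˢ iv (k + 1) (m.2.2 / 2) :=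
    product_subset_product hB hC
  have hcd : ((iv (k + 1) (m.2.1 / 2) ×ˢ iv (k + 1) (m.2.2 / 2)).card : ℝ) =
      4 * (iv k m.2.1 ×ˢ iv k m.2.2).card := by
    rw [card_product, card_product]
    push_cast
    rw [card_iv_up k m.2.1, card_iv_up k m.2.2]
    ring
  have e : (fun p : ℤ × ℤ => cutE (iv k m.2.1) (iv k m.2.2) a p.1 p.2) =
      fun p => if p ∈ iv k m.2.1 ×ˢ iv k m.2.2 then a p.1 p.2 else 0 := by
    funext p
    unfold cutE
    simp only [mem_product]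
  have e2 := Vale.Agent.P141.H205.n2_cut hs hcd (fun p : ℤ × ℤ => a p.1 p.2)
  have e4 := Vale.Agent.P141.H205.n4_cut hs hcd (fun p : ℤ × ℤ => a p.1 p.2)
  show 32 * (16 * M * (n2 (iv (k + 1) (m.2.1 / 2) ×ˢ iv (k + 1) (m.2.2 / 2)) (fun p =>
    cutE (iv k m.2.1) (iv k m.2.2) a p.1 p.2) ^ 2 *
      n4 (iv (k + 1) (m.2.1 / 2) ×ˢ iv (k + 1) (m.2.2 / 2)) (fun p =>
        cutE (iv k m.2.1) (iv k m.2.2) a p.1 p.2) ^ 2)) ≤ _
  rw [e, e2]
  have h4 := pow_le_pow_left₀ (n4_nonneg _ _) e4 2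
  have h5 := n2_nonneg (iv k m.2.1 ×ˢ iv k m.2.2) (fun p : ℤ × ℤ => a p.1 p.2)
  set N2 := n2 (iv k m.2.1 ×ˢ iv k m.2.2) (fun p : ℤ × ℤ => a p.1 p.2) with hN2
  calc _ ≤ 32 * (16 * M * ((1 / 2 * N2) ^ 2 *
        n4 (iv k m.2.1 ×ˢ iv k m.2.2) (fun p : ℤ × ℤ => a p.1 p.2) ^ 2)) := by
        gcongr
    _ = _ := by ring

/-- **The slots of the roles.** -/
theorem msl_of_cell {σ : ℤ} {al : ℕ → ℤ → Prop} (hal : Alv 7 σ al) {n : ℕ} {K0 t e : ℝ}
    (hK0 : 0 ≤ K0) (he : 0 ≤ e) {f : Fin 4 → ℤ → ℝ} {i a : Fin 4}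
    (h : ∀ p : Fin 3, jf i p = a → CfCell 7 σ al n (cf i p) (K0 * (t ^ 2 * e)) (f a)) :
    MSl al n (128 * K0) t e f i a := by
  rintro p rfl
  have g := cf_good i p
  have h1 := mo4_of_cell hal (c := cf i p)
    (Vale.Agent.P141.H205.csz_le g.2.2.2.1 g.2.2.2.2.1 g.2.2.2.2.2 le_rfl)
    (M := K0 * (t ^ 2 * e)) (by positivity) (h p rfl)
  refine Mo4.mono h1 (le_of_eq ?_)
  ring

/-- **(CF) pays**: one face with good moments on the cells, one uniform face, one face only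
locally in `L²`. -/
theorem costR_cell {ε K0 : ℝ} (hK0 : 0 ≤ K0) (hε : 0 < ε) (hε' : ε ≤ 1 / 4) {σ : ℤ}
    {al : ℕ → ℤ → Prop} (hal : Alv 7 σ al) {n : ℕ} {f : Fin 4 → ℤ → ℝ} {i a b c : Fin 4}
    (hd : [i, a, b, c].Nodup) {ta tb ea eb ec : ℝ} (hta : 0 ≤ ta) (hea : 0 ≤ ea) (htb : 0 ≤ tb)
    (htb2 : tb ^ 2 ≤ eb) (hec : 0 ≤ ec) (Ea : ESl 7 σ al n ea (f a))
    (Ma : ∀ p : Fin 3, jf i p = a → CfCell 7 σ al n (cf i p) (K0 * (ta ^ 2 * ea)) (f a))
    (Eb : ESl 7 σ al n eb (f b)) (Ub : USl 7 σ al n (fc b) tb (f b))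
    (Ec : ESl 7 σ al n ec (f c)) {o : ℤ} (ho : o = 1 ∨ o = -1) {K : ℕ} (hK : K ≤ n) :
    CostR i o K (CenM ε (128 * K0 + 240000 * TT ^ 4) * prE ε ta tb ea eb ec)
      (fun K p u => wP 1 (cube3 K p) u) (fun k _ j => kl al (f j) k) :=
  costR_uni_mo (by positivity) hε hε' hal hd hta hea htb htb2 hec Ea (msl_of_cell hal hK0 hea Ma)
    Eb Ub Ec ho hK

end

end Vale.Agent.P141.H437
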