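import Vale.Agent.P141.H48.EnTop

/-!
# P141, line W, squad CE, module C9: (E) when the slots are given by their fourth moments

The bound `cos0_le` of (E) uses of a slot the box form, the trivial moments and the CENTRE FREE
moments `Mo4 n (K0 * (t ^ 2 * e))` only; no uniformity.  Here: the three positions of the `L²`
slot and the four roles for slots with this moment, the output in the letters of `EnOut`.  A slot
whose fourth moments are `t ^ (2 + d) * e` is a slot with `t ^ (1 + d / 2)` for `t`.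
-/

namespace Vale.Agent.P141.H437

open Finset Vale.Agent.P141.PL Vale.Agent.P141.H48 Vale.Agent.P141.H414
open Vale.Agent.P141.PL.H315 (cube3 atm Tri)
open Vale.Agent.P141.PL.H321 (t12 t23 u12 u23)
open Vale.Agent.P141.H922 (n2 n4 wP wP_nonneg)
open Vale.Agent.P141.H769 (mo4f)
open Vale.Agent.P141.H347.Tr (CostR)
open Vale.Agent.P141.PL.H315 (avg)

noncomputable section

open scoped Classical

/-- a slot on the boxes, given by its fourth moments -/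
def MS (n : ℕ) (K0 t e cP : ℝ) (F : ℕ → Pt → ℝ) : Prop :=
  0 ≤ t ∧ 0 ≤ e ∧ Mo4 n (K0 * (t ^ 2 * e)) F ∧ ∃ Q, BSl n e cP F Q

theorem Mo4.mono {n : ℕ} {M M' : ℝ} {F : ℕ → Pt → ℝ} (h : Mo4 n M F) (hM : M ≤ M') :
    Mo4 n M' F := by
  intro k hk m a
  refine (h k hk m a).trans (mul_le_mul_of_nonneg_right hM ?_)
  positivity

theorem BSl.mono {n : ℕ} {e e' cP cP' : ℝ} {F : ℕ → Pt → ℝ} {Q : ℕ → Pt → Prop}
    (h : BSl n e cP F Q) (he : e ≤ e') (hc : cP ≤ cP') : BSl n e' cP' F Q where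
  agree := h.agree
  pack x0 K hK r s := (h.pack x0 K hK r s).trans (mul_le_mul_of_nonneg_right hc (by positivity))
  l0 k hk m x y := (h.l0 k hk m x y).trans (mul_le_mul_of_nonneg_right he (by positivity))
  l1 k hk m x y := (h.l1 k hk m x y).trans (mul_le_mul_of_nonneg_right he (by positivity))
  l2 k hk m x y := (h.l2 k hk m x y).trans (mul_le_mul_of_nonneg_right he (by positivity))

theorem MS.mono {n : ℕ} {K0 K0' t t' e e' cP : ℝ} {F : ℕ → Pt → ℝ} (h : MS n K0 t e cP F)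
    (hK : 0 ≤ K0) (hK' : K0 ≤ K0') (ht : t ≤ t') (he : e ≤ e') : MS n K0' t' e' cP F := by
  obtain ⟨h1, h2, h3, Q, h4⟩ := h
  refine ⟨h1.trans ht, h2.trans he, Mo4.mono h3 ?_, Q, BSl.mono h4 he le_rfl⟩
  have h5 : t ^ 2 ≤ t' ^ 2 := pow_le_pow_left₀ h1 ht 2
  have h6 : t ^ 2 * e ≤ t' ^ 2 * e' := mul_le_mul h5 he h2 (by positivity)
  exact mul_le_mul hK' h6 (by positivity) (hK.trans hK')

/-- a uniform slot is a moment slot -/
theorem ms_of_us {n : ℕ} {t e cP : ℝ} {F : ℕ → Pt → ℝ} (h : US n t e cP F) :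
    MS n 240000 t e cP F := by
  obtain ⟨h1, h2, h3, Q, h4⟩ := h
  have he : 0 ≤ e := (sq_nonneg _).trans h2
  exact ⟨h1, he, moUni n t e cP F Q h1 he h4 h3, Q, h4⟩

/-- (E) in the position of role `0`, `L²` slot `F2`, two moment slots -/
def Pos2M (C ε K0 cP : ℝ) : Prop :=
  ∀ (n : ℕ) (t1 t3 e1 e2 e3 : ℝ) (F1 F2 F3 : ℕ → Pt → ℝ), MS n K0 t1 e1 cP F1 →
    MS n K0 t3 e3 cP F3 → ES n e2 cP F2 → ∀ o : ℤ, o = 1 ∨ o = -1 → ∀ K ≤ n, ∀ (x : Pt) (u : Tri),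
    cos0 o K x u F1 F2 F3 ≤ C * prE ε t1 t3 e1 e3 e2 * wP 1 (cube3 K x) u

theorem pos2M_of {Λ C K0 : ℝ} (hΛ : 1 ≤ Λ) (hC : 0 ≤ C) (hK0 : 0 ≤ K0) (hG : GenSt Λ)
    (hE : EngF C) (hP : PthSt Λ) (hO : OwnSt Λ) {ε cP : ℝ}
    (hε : 0 < ε) (hε' : ε ≤ 1 / 4) (hcP : 0 ≤ cP) : Pos2M (2 * cG Λ cP K0 C ε) ε K0 cP := by
  intro n t1 t3 e1 e2 e3 F1 F2 F3 h1 h3 h2 o ho K hK x u
  obtain ⟨ht1, he1, hM1, Q1, hB1⟩ := h1
  obtain ⟨ht3, he3, hM3, Q3, hB3⟩ := h3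
  obtain ⟨he2, Q2, hB2⟩ := h2
  have ho' : |o| = 1 := by rcases ho with rfl | rfl <;> simp
  have h := cos0_le hΛ hC hG hE hP hO hε hε' hcP hK0 ht1 ht3 he1 he2 he3
    (F1 := F1) (F2 := F2) (F3 := F3)
    ⟨hB1, moTri n e1 cP F1 Q1 he1 hB1, hM1⟩
    ⟨hB3, moTri n e3 cP F3 Q3 he3 hB3, hM3⟩ hB2
    (moTri n e2 cP F2 Q2 he2 hB2) ho' hK x u
  refine h.trans (le_of_eq ?_)
  ring

theorem pos2M_all {ε K0 cP : ℝ} (hK0 : 0 ≤ K0) (hε : 0 < ε) (hε' : ε ≤ 1 / 4) (hcP : 0 ≤ cP) :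
    Pos2M (2 * cG Lam0 cP K0 (2 * (2160 * 4400)) ε) ε K0 cP :=
  pos2M_of one_le_Lam0 (by norm_num) hK0 genSt Vale.Agent.P141.H784.engF
    (Vale.Agent.P141.H769.pthSt _) (Vale.Agent.P141.H769.ownSt one_le_Lam0) hε hε' hcP

/-! ### The transposition of the last two variables -/

/-- The fourth moment does not change when the two variables of the gauge are exchanged. -/
theorem mo4f_swap (A B C : Finset ℤ) (a : ℤ → ℤ → ℝ) (G : Pt → ℝ) :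
    mo4f A B C a (s23 G) = mo4f A C B (fun x y => a y x) G := by
  unfold mo4f
  refine Vale.Agent.P141.H550.avg_congr fun z _ => ?_
  have h := Vale.Agent.P141.H573.cross_swap B C (fun x y => a x y * s23 G (z, x, y))
    (fun x y => a x y * s23 G (z, x, y))
  rw [h]
  refine Vale.Agent.P141.H550.avg_congr fun y _ => Vale.Agent.P141.H550.avg_congr fun y' _ => ?_
  rw [sq]
  rfl

theorem n2_swap (A B : Finset ℤ) (a : ℤ → ℤ → ℝ) :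
    n2 (B ×ˢ A) (fun p => a p.2 p.1) = n2 (A ×ˢ B) (fun p => a p.1 p.2) := by
  unfold n2 avg
  rw [card_product, card_product, mul_comm B.card, sum_product, sum_product_right]

theorem n4_swap (A B : Finset ℤ) (a : ℤ → ℤ → ℝ) :
    n4 (B ×ˢ A) (fun p => a p.2 p.1) = n4 (A ×ˢ B) (fun p => a p.1 p.2) := by
  unfold Vale.Agent.P141.H922.n4 avg
  rw [card_product, card_product, mul_comm B.card, sum_product, sum_product_right]

theorem Mo4.s23 {n : ℕ} {M : ℝ} {F : ℕ → Pt → ℝ} (h : Mo4 n M F) :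
    Mo4 n M (fun k => s23 (F k)) := by
  intro k hk m a
  rw [mo4f_swap]
  have h1 := h k hk (t23 m) (fun x y => a y x)
  refine h1.trans (le_of_eq ?_)
  show M * (n2 (iv k m.2.2 ×ˢ iv k m.2.1) (fun p => a p.2 p.1) ^ 2 *
    n4 (iv k m.2.2 ×ˢ iv k m.2.1) (fun p => a p.2 p.1) ^ 2) = _
  rw [n2_swap, n4_swap]

theorem MS.s23 {n : ℕ} {K0 t e cP : ℝ} {F : ℕ → Pt → ℝ} (h : MS n K0 t e cP F) :
    MS n K0 t e cP (fun k => s23 (F k)) := by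
  obtain ⟨h1, h2, h3, Q, h4⟩ := h
  exact ⟨h1, h2, Mo4.s23 h3, _, BSl.s23 h4⟩

/-! ### The positions -/

/-- the `L²` slot in the position `3` -/
def Pos3M (C ε K0 cP : ℝ) : Prop :=
  ∀ (n : ℕ) (t1 t2 e1 e2 e3 : ℝ) (F1 F2 F3 : ℕ → Pt → ℝ), MS n K0 t1 e1 cP F1 →
    MS n K0 t2 e2 cP F2 → ES n e3 cP F3 → ∀ o : ℤ, o = 1 ∨ o = -1 → ∀ K ≤ n, ∀ (x : Pt) (u : Tri),
    cos0 o K x u F1 F2 F3 ≤ C * prE ε t1 t2 e1 e2 e3 * wP 1 (cube3 K x) u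

/-- the `L²` slot in the position `1` -/
def Pos1M (C ε K0 cP : ℝ) : Prop :=
  ∀ (n : ℕ) (t2 t3 e1 e2 e3 : ℝ) (F1 F2 F3 : ℕ → Pt → ℝ), MS n K0 t2 e2 cP F2 →
    MS n K0 t3 e3 cP F3 → ES n e1 cP F1 → ∀ o : ℤ, o = 1 ∨ o = -1 → ∀ K ≤ n, ∀ (x : Pt) (u : Tri),
    cos0 o K x u F1 F2 F3 ≤ C * prE ε t2 t3 e2 e3 e1 * wP 1 (cube3 K x) u

theorem pos3M_of_pos2M {C ε K0 cP : ℝ} (h : Pos2M C ε K0 cP) : Pos3M C ε K0 cP := by
  intro n t1 t2 e1 e2 e3 F1 F2 F3 h1 h2 h3 o ho K hK x u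
  have h4 := h n t1 t2 e1 e3 e2 (fun k => PL.s23 (F1 k)) F3 F2 (MS.s23 h1) h2 h3 o ho K hK (t23 x)
    (u23 u)
  rwa [cos0_t23, wP_t23] at h4

theorem pos1M_of_pos2M {C ε K0 cP : ℝ} (h : Pos2M C ε K0 cP) : Pos1M C ε K0 cP := by
  intro n t2 t3 e1 e2 e3 F1 F2 F3 h2 h3 h1 o ho K hK x u
  have h4 := h n t2 t3 e2 e1 e3 F2 F1 (fun k => PL.s23 (F3 k)) h2 (MS.s23 h3) h1 o ho K hK (t12 x)
    (u12 u)
  rwa [cos0_t12, wP_t12] at h4

/-- the cost in any position of the `L²` slot -/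
theorem cos0_allM {C ε K0 cP : ℝ} (h2 : Pos2M C ε K0 cP) {n : ℕ} {F : Fin 3 → ℕ → Pt → ℝ}
    {pa pb pc : Fin 3} (hd : [pa, pb, pc].Nodup) {ta tb ea eb ec : ℝ}
    (ha : MS n K0 ta ea cP (F pa)) (hb : MS n K0 tb eb cP (F pb)) (hc : ES n ec cP (F pc)) {o : ℤ}
    (ho : o = 1 ∨ o = -1) {K : ℕ} (hK : K ≤ n) (x : Pt) (u : Tri) :
    cos0 o K x u (F 0) (F 1) (F 2) ≤ C * prE ε ta tb ea eb ec * wP 1 (cube3 K x) u := by
  have h3 := pos3M_of_pos2M h2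
  have h1 := pos1M_of_pos2M h2
  obtain ⟨rfl, rfl, rfl⟩ | ⟨rfl, rfl, rfl⟩ | ⟨rfl, rfl, rfl⟩ | ⟨rfl, rfl, rfl⟩ | ⟨rfl, rfl, rfl⟩ |
    ⟨rfl, rfl, rfl⟩ := fin3_cases pa pb pc hd
  · exact h3 n ta tb ea eb ec _ _ _ ha hb hc o ho K hK x u
  · rw [prE_comm]; exact h3 n tb ta eb ea ec _ _ _ hb ha hc o ho K hK x u
  · exact h2 n ta tb ea ec eb _ _ _ ha hb hc o ho K hK x u
  · rw [prE_comm]; exact h2 n tb ta eb ec ea _ _ _ hb ha hc o ho K hK x u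
  · exact h1 n ta tb ec ea eb _ _ _ ha hb hc o ho K hK x u
  · rw [prE_comm]; exact h1 n tb ta ec eb ea _ _ _ hb ha hc o ho K hK x u

/-! ### The four roles -/

/-- the fourth moments of the face `a` in the role `i` -/
def MSl (al : ℕ → ℤ → Prop) (n : ℕ) (K0 t e : ℝ) (f : Fin 4 → ℤ → ℝ) (i a : Fin 4) : Prop :=
  ∀ p : Fin 3, jf i p = a → Mo4 n (K0 * (t ^ 2 * e)) (sf al f i p)

theorem MSl.mono {al : ℕ → ℤ → Prop} {n : ℕ} {K0 K0' t t' e e' : ℝ} {f : Fin 4 → ℤ → ℝ}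
    {i a : Fin 4} (h : MSl al n K0 t e f i a) (hK : 0 ≤ K0) (hK' : K0 ≤ K0') (ht0 : 0 ≤ t)
    (ht : t ≤ t') (he0 : 0 ≤ e) (he : e ≤ e') : MSl al n K0' t' e' f i a := by
  intro p hp
  refine Mo4.mono (h p hp) ?_
  have h5 : t ^ 2 ≤ t' ^ 2 := pow_le_pow_left₀ ht0 ht 2
  have h6 : t ^ 2 * e ≤ t' ^ 2 * e' := mul_le_mul h5 he he0 (by positivity)
  exact mul_le_mul hK' h6 (by positivity) (hK.trans hK')

/-- the constant of the comparison of the line with the boxes -/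
abbrev TT : ℝ := 2 ^ 9

theorem cmpT : CmpSt 7 TT := Vale.Agent.P141.H205.cmpSt_holds le_rfl

/-- a uniform slot has good moments in every role -/
theorem msl_of_usl {σ : ℤ} {al : ℕ → ℤ → Prop} (hal : Alv 7 σ al) {n : ℕ} {t e : ℝ} (ht : 0 ≤ t)
    (hte : t ^ 2 ≤ e) {f : Fin 4 → ℤ → ℝ} {i a : Fin 4} (hE : ESl 7 σ al n e (f a))
    (hU : USl 7 σ al n (fc a) t (f a)) : MSl al n (240000 * TT ^ 4) t e f i a := by
  rintro p rfl
  have he : 0 ≤ e := (sq_nonneg t).trans hte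
  have g := cf_good i p
  have h := (cmpT σ al hal n (cf i p) g.1 g.2.1
    g.2.2.1 g.2.2.2.1 g.2.2.2.2.1 g.2.2.2.2.2 e (f (jf i p)) he hE).2 t ht hte (usl_cf i p hU)
  refine Mo4.mono (ms_of_us h).2.2.1 (le_of_eq ?_)
  ring

/-- **(E) in the pair weight, slots with moments, all roles**: `i` the role, `a b` the faces with
good moments, `c` the face with bounded energy only. -/
def EnMoOut (C ε K0 : ℝ) : Prop :=
  ∀ (σ : ℤ) (al : ℕ → ℤ → Prop), Alv 7 σ al → ∀ (n : ℕ) (f : Fin 4 → ℤ → ℝ) (i a b c : Fin 4),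
    [i, a, b, c].Nodup → ∀ ta ea tb eb ec : ℝ, 0 ≤ ta → 0 ≤ ea → 0 ≤ tb → 0 ≤ eb → 0 ≤ ec →
    ESl 7 σ al n ea (f a) → MSl al n K0 ta ea f i a → ESl 7 σ al n eb (f b) →
    MSl al n K0 tb eb f i b → ESl 7 σ al n ec (f c) → ∀ o : ℤ, o = 1 ∨ o = -1 → ∀ K ≤ n,
    CostR i o K (C * prE ε ta tb ea eb ec) (fun K p u => wP 1 (cube3 K p) u)
      fun k _ j => kl al (f j) k

/-- the constant of (E) for slots with moments -/
def CenM (ε K0 : ℝ) : ℝ := 2 * cG Lam0 52 K0 (2 * (2160 * 4400)) ε * TT ^ (5 / 2 : ℝ)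

theorem CenM_nonneg {ε K0 : ℝ} (hε : 0 < ε) (hK0 : 0 ≤ K0) : 0 ≤ CenM ε K0 := by
  have := cG_nonneg (Λ := Lam0) (cP := 52) (K0 := K0) (C := 2 * (2160 * 4400)) (ε := ε)
    (by norm_num) hK0 (by norm_num) hε
  unfold CenM
  positivity

/-- a face with good moments is a moment slot on the boxes -/
theorem ms_sf {σ : ℤ} {al : ℕ → ℤ → Prop} (hal : Alv 7 σ al) {n : ℕ} {K0 t e : ℝ}
    (hK0 : 0 ≤ K0) (ht : 0 ≤ t) (he : 0 ≤ e) {f : Fin 4 → ℤ → ℝ} {i : Fin 4} (p : Fin 3)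
    (hE : ESl 7 σ al n e (f (jf i p))) (hM : MSl al n K0 t e f i (jf i p)) :
    MS n K0 (TT * t) (TT ^ 2 * e) 52 (sf al f i p) := by
  have g := cf_good i p
  obtain ⟨h1, Q, h2⟩ := (cmpT σ al hal n (cf i p)
    g.1 g.2.1 g.2.2.1 g.2.2.2.1 g.2.2.2.2.1 g.2.2.2.2.2 e (f (jf i p)) he hE).1
  have hT : (1 : ℝ) ≤ TT := by norm_num [TT]
  have h3 : TT * e ≤ TT ^ 2 * e := mul_le_mul_of_nonneg_right (by norm_num [TT]) he
  refine ⟨by positivity, by positivity, Mo4.mono (hM p rfl) ?_, Q, BSl.mono h2 h3 le_rfl⟩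
  refine mul_le_mul_of_nonneg_left ?_ hK0
  have h4 : e ≤ TT ^ 2 * e := le_mul_of_one_le_left he (by norm_num [TT])
  have h5 : t ^ 2 ≤ (TT * t) ^ 2 := by
    refine pow_le_pow_left₀ ht ?_ 2
    exact le_mul_of_one_le_left ht hT
  exact mul_le_mul h5 h4 he (by positivity)

/-- **C9.** -/
theorem enMoOut {ε K0 : ℝ} (hK0 : 0 ≤ K0) (hε : 0 < ε) (hε' : ε ≤ 1 / 4) :
    EnMoOut (CenM ε K0) ε K0 := by
  intro σ al hal n f i a b c hd ta ea tb eb ec hta hea htb heb hec Ea Ma Eb Mb Ec o ho K hK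
  rw [costR_iff]
  intro x u
  obtain ⟨pa, pb, pc, hp, rfl, rfl, rfl⟩ := pos_ex i a b c hd
  have gc := cf_good i pc
  have hc := (cmpT σ al hal n (cf i pc) gc.1 gc.2.1
    gc.2.2.1 gc.2.2.2.1 gc.2.2.2.2.1 gc.2.2.2.2.2 ec (f (jf i pc)) hec Ec).1
  have h := cos0_allM (F := sf al f i) (pos2M_all hK0 hε hε' (cP := 52) (by norm_num)) hp
    (ms_sf hal hK0 hta hea pa Ea Ma) (ms_sf hal hK0 htb heb pb Eb Mb) hc ho hK x u
  rw [prE_smul (by norm_num) hta htb hea heb hec] at h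
  refine h.trans (le_of_eq ?_)
  unfold CenM
  ring

/-- **C9, one uniform slot and one slot with good moments.** -/
theorem costR_uni_mo {ε K0 : ℝ} (hK0 : 0 ≤ K0) (hε : 0 < ε) (hε' : ε ≤ 1 / 4) {σ : ℤ}
    {al : ℕ → ℤ → Prop} (hal : Alv 7 σ al) {n : ℕ} {f : Fin 4 → ℤ → ℝ} {i a b c : Fin 4}
    (hd : [i, a, b, c].Nodup) {ta tb ea eb ec : ℝ} (hta : 0 ≤ ta) (hea : 0 ≤ ea) (htb : 0 ≤ tb)
    (htb2 : tb ^ 2 ≤ eb) (hec : 0 ≤ ec) (Ea : ESl 7 σ al n ea (f a))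
    (Ma : MSl al n K0 ta ea f i a) (Eb : ESl 7 σ al n eb (f b)) (Ub : USl 7 σ al n (fc b) tb (f b))
    (Ec : ESl 7 σ al n ec (f c)) {o : ℤ} (ho : o = 1 ∨ o = -1) {K : ℕ} (hK : K ≤ n) :
    CostR i o K (CenM ε (K0 + 240000 * TT ^ 4) * prE ε ta tb ea eb ec)
      (fun K p u => wP 1 (cube3 K p) u) (fun k _ j => kl al (f j) k) := by
  have heb : 0 ≤ eb := (sq_nonneg tb).trans htb2
  have hT : (0 : ℝ) ≤ 240000 * TT ^ 4 := by positivity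
  exact enMoOut (add_nonneg hK0 hT) hε hε' σ al hal n f i a b c hd ta ea tb eb ec hta hea htb heb
    hec Ea (MSl.mono Ma hK0 (by linarith) hta le_rfl hea le_rfl) Eb
    (MSl.mono (msl_of_usl hal htb htb2 Eb Ub) hT (by linarith) htb le_rfl heb le_rfl) Ec o ho K hK

end

end Vale.Agent.P141.H437
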