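import Vale.Agent.P141.H572.CE0
import Vale.Agent.P141.H347.GLev
import Vale.Agent.P141.H639.PermCost
import Vale.Agent.P141.H414.En8
import Vale.Agent.P141.H971.Dict
import Vale.Agent.P141.H419.WpBox
import Vale.Agent.P141.H628.Birth

/-!
# P141, squad CE: what generic uniformity says about a function with a scalar representation

`Rep k q M w`: on the cube of scale `k` the function `w` of three variables is a finite sum of
scalar atoms of total pair mass at most `M`.  For such a `w`: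

* `dot_pfw_self_le`, `l2_pfw_le`: the `L²` norm of the push-forward, by duality with the first
  level;
* `test_rep`: if `F` passes on one cell the tests of the total system (347's `Par.tot`, 829's
  floor), its pairing with the push-forward of `w` is at most
  `A (8 θ P + (4 φ + φ') 8^k M)`, `P` the costs of the push-forward in the classes of the system;
  `test_fm`: the same for every permuted form (`Fm`), in particular for the forms `cf i p` of the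
  slots of (E);
* `rep_catm`: composite atoms (labels on the three vertices), `M = 6 pw3` of the vector norms (the
  scalar representation is the mean over random signs); `rep_cen`: the centre atoms of 971,
  `M = 18 e h^(1/2) p^(5/2)`;
* `genU_of_price`, `genU_of_price'`: the price of the centre atoms gives 971's `GenU`, both
  orientations of the box.
-/

namespace Vale.Agent.P141.H437

open Finset
open Vale.Agent.P141.H315 (Grid dot dot_self_nonneg)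
open Vale.Agent.P141.PL (Pt el fc)
open Vale.Agent.P141.PL.H315 (avg avg_nonneg atm e12 e13 e23 Tri cube3 card_cube3 iv mem_cube3)
open Vale.Agent.P141.PL.H318 (a1 ixs CSys csz)
open Vale.Agent.P141.PL.H95 (gr card_gr)
open Vale.Agent.P141.PL.H321 (t12 t23 u12 u23 atm_t12 atm_t23)
open Vale.Agent.P141.H922 (pw3 wP pw3_nonneg wP_nonneg wP_eq n2 n4 nN n2_nonneg n4_nonneg nN_nonneg
  n2_sq sysPT)
open Vale.Agent.P141.H204 (vn2 vn vn_sq)
open Vale.Agent.P141.H572 (catm vt rt Sg catm_eq avg_pw3 catm1 catm1_eq)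
open Vale.Agent.P141.H639 (pfw)
open Vale.Agent.P141.H736 (Fg psg scg Cls CW cost cost_nonneg l2 l2_nonneg l2_sq)
open Vale.Agent.P141.H829 (lsc lsc_le)
open Vale.Agent.P141.H8 (Un)
open Vale.Agent.P141.H347.Gs (Par gfL kap GFam)
open Vale.Agent.P141.H414 (jf cf)
open Vale.Agent.P141.H769 (lft)
open Vale.Agent.P141.H971 (Cen cen GenU)

noncomputable section

/-! ### Scalar representations -/

/-- **A scalar representation**: `w` is on the cube a finite sum of atoms of total mass `≤ M`. -/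
def Rep (k : ℕ) (q : Pt) (M : ℝ) (w : Pt → ℝ) : Prop :=
  ∃ l : List Tri, (∀ y ∈ cube3 k q, w y = (l.map fun u => atm u y).sum) ∧
    (l.map fun u => pw3 (cube3 k q) u).sum ≤ M

variable {k : ℕ} {q : Pt} {M : ℝ} {w : Pt → ℝ}

theorem Rep.mono {M' : ℝ} (h : Rep k q M w) (hM : M ≤ M') : Rep k q M' w := by
  obtain ⟨l, h1, h2⟩ := h
  exact ⟨l, h1, h2.trans hM⟩

theorem Rep.nonneg (h : Rep k q M w) : 0 ≤ M := by
  obtain ⟨l, _, h2⟩ := h
  refine le_trans (List.sum_nonneg ?_) h2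
  intro x hx
  rw [List.mem_map] at hx
  obtain ⟨u, _, rfl⟩ := hx
  exact pw3_nonneg _ _

theorem Rep.congr {w' : Pt → ℝ} (h : Rep k q M w) (hw : ∀ y ∈ cube3 k q, w' y = w y) :
    Rep k q M w' := by
  obtain ⟨l, h1, h2⟩ := h
  exact ⟨l, fun y hy => (hw y hy).trans (h1 y hy), h2⟩

theorem Rep.add {M' : ℝ} {w' : Pt → ℝ} (h : Rep k q M w) (h' : Rep k q M' w') :
    Rep k q (M + M') fun y => w y + w' y := by
  obtain ⟨l, h1, h2⟩ := h
  obtain ⟨l', h1', h2'⟩ := h'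
  refine ⟨l ++ l', fun y hy => ?_, ?_⟩
  · show w y + w' y = _
    rw [List.map_append, List.sum_append, h1 y hy, h1' y hy]
  · rw [List.map_append, List.sum_append]
    exact add_le_add h2 h2'

theorem rep_atm (k : ℕ) (q : Pt) (u : Tri) : Rep k q (pw3 (cube3 k q) u) (atm u) :=
  ⟨[u], fun y _ => by simp, by simp⟩

/-- the first edge multiplied by a constant -/
def sm1 (s : ℝ) (u : Tri) : Tri := (fun x => s * u.1 x, fun x => 1 * u.2.1 x, fun x => 1 * u.2.2 x)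

theorem atm_sm1 (s : ℝ) (u : Tri) (y : Pt) : atm (sm1 s u) y = s * atm u y := by
  unfold atm e12 e13 e23 sm1
  ring

theorem pw3_sm1 (s : ℝ) (Q : Finset Pt) (u : Tri) : pw3 Q (sm1 s u) = |s| * pw3 Q u := by
  unfold sm1
  rw [Vale.Agent.P141.H419.pw3_smul]
  simp

theorem list_map_mul {α : Type*} (l : List α) (f : α → ℝ) (s : ℝ) :
    (l.map fun a => s * f a).sum = s * (l.map f).sum := by
  induction l with
  | nil => simp
  | cons a l ih => rw [List.map_cons, List.sum_cons, List.map_cons, List.sum_cons, ih, mul_add]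

theorem Rep.smul (h : Rep k q M w) (s : ℝ) : Rep k q (|s| * M) fun y => s * w y := by
  obtain ⟨l, h1, h2⟩ := h
  refine ⟨l.map (sm1 s), fun y hy => ?_, ?_⟩
  · show s * w y = _
    rw [h1 y hy, List.map_map, ← list_map_mul]
    congr 1
    refine List.map_congr_left fun u _ => ?_
    exact (atm_sm1 s u y).symm
  · rw [List.map_map]
    have e : (l.map ((fun u => pw3 (cube3 k q) u) ∘ sm1 s)).sum =
        |s| * (l.map fun u => pw3 (cube3 k q) u).sum := by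
      rw [← list_map_mul]
      congr 1
      refine List.map_congr_left fun u _ => ?_
      exact pw3_sm1 s _ u
    rw [e]
    exact mul_le_mul_of_nonneg_left h2 (abs_nonneg _)

/-! ### The permutations of the variables -/

theorem rep_t12 (h : Rep k q M w) : Rep k (t12 q) M fun y => w (t12 y) := by
  obtain ⟨l, h1, h2⟩ := h
  refine ⟨l.map u12, fun y hy => ?_, ?_⟩
  · have hy' : t12 y ∈ cube3 k q := by
      rw [mem_cube3] at hy ⊢
      exact ⟨hy.2.1, hy.1, hy.2.2⟩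
    show w (t12 y) = _
    rw [h1 _ hy', List.map_map]
    congr 1
    exact List.map_congr_left fun u _ => atm_t12 u y
  · rw [List.map_map]
    refine (le_of_eq ?_).trans h2
    congr 1
    exact List.map_congr_left fun u _ => Vale.Agent.P141.H347.Tr.pw3_t12 k q u

theorem rep_t23 (h : Rep k q M w) : Rep k (t23 q) M fun y => w (t23 y) := by
  obtain ⟨l, h1, h2⟩ := h
  refine ⟨l.map u23, fun y hy => ?_, ?_⟩
  · have hy' : t23 y ∈ cube3 k q := by
      rw [mem_cube3] at hy ⊢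
      exact ⟨hy.1, hy.2.2, hy.2.1⟩
    show w (t23 y) = _
    rw [h1 _ hy', List.map_map]
    congr 1
    exact List.map_congr_left fun u _ => atm_t23 u y
  · rw [List.map_map]
    refine (le_of_eq ?_).trans h2
    congr 1
    exact List.map_congr_left fun u _ => Vale.Agent.P141.H347.Tr.pw3_t23 k q u

theorem pfw_t12 (c : Pt) (k : ℕ) (q : Pt) (w : Pt → ℝ) :
    pfw (t12 c) k q w = pfw c k (t12 q) fun y => w (t12 y) := by
  funext s
  unfold pfw
  rw [← Vale.Agent.P141.PL.H321.sum_cube_t12]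
  refine sum_congr rfl fun y _ => ?_
  rw [Vale.Agent.P141.H414.el_t12]
  rfl

theorem pfw_t23 (c : Pt) (k : ℕ) (q : Pt) (w : Pt → ℝ) :
    pfw (t23 c) k q w = pfw c k (t23 q) fun y => w (t23 y) := by
  funext s
  unfold pfw
  rw [← Vale.Agent.P141.PL.H321.sum_cube_t23]
  refine sum_congr rfl fun y _ => ?_
  rw [Vale.Agent.P141.H414.el_t23]
  rfl

/-! ### The push-forward -/

theorem dot_pfw (c : Pt) (k : ℕ) (q : Pt) (w : Pt → ℝ) (J : Finset ℤ) (G : ℤ → ℝ) :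
    dot J G (pfw c k q w) = ∑ y ∈ cube3 k q, lft c J G y * w y := by
  unfold dot pfw lft
  simp_rw [Finset.mul_sum]
  rw [Finset.sum_comm]
  refine Finset.sum_congr rfl fun y _ => ?_
  by_cases hy : el c y ∈ J
  · rw [if_pos hy, Finset.sum_eq_single (el c y)]
    · simp
    · intro s _ hs; rw [if_neg (fun h => hs h.symm)]; simp
    · intro h; exact absurd hy h
  · rw [if_neg hy, zero_mul]
    refine Finset.sum_eq_zero fun s hs => ?_
    rw [if_neg (fun h : el c y = s => hy (by rw [h]; exact hs))]; simp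

theorem pfw_congr {c : Pt} {w w' : Pt → ℝ} (h : ∀ y ∈ cube3 k q, w y = w' y) :
    pfw c k q w = pfw c k q w' := by
  funext s
  unfold pfw
  refine sum_congr rfl fun y hy => ?_
  rw [h y hy]

/-- the push-forward of a sum of atoms -/
theorem sum_a1 (c : Pt) (k : ℕ) (q : Pt) (l : List Tri) :
    (l.map fun u => a1 c k (q, u)).sum = pfw c k q fun y => (l.map fun u => atm u y).sum := by
  induction l with
  | nil =>
    funext s
    unfold pfw
    simp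
  | cons a l ih =>
    rw [List.map_cons, List.sum_cons, ih]
    funext s
    rw [Pi.add_apply]
    unfold pfw a1
    rw [← sum_add_distrib]
    refine sum_congr rfl fun y _ => ?_
    simp only [List.map_cons, List.sum_cons]
    split_ifs
    · rfl
    · rw [add_zero]

/-- the generic test of a representation -/
theorem psg_eq {c : Pt} {l : List Tri}
    (h : ∀ y ∈ cube3 k q, w y = (l.map fun u => atm u y).sum) :
    psg c (k, q, l) = (4 ^ k : ℝ)⁻¹ • pfw c k q w := by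
  unfold psg
  simp only
  rw [sum_a1, pfw_congr h]

/-- the pairing with the push-forward, first level -/
theorem dot_pfw_le {c : Pt} (h1 : c.1 ≠ 0) (h2 : c.2.1 ≠ 0) (h3 : c.2.2 ≠ 0) (hw : Rep k q M w)
    (J : Finset ℤ) (f : ℤ → ℝ) {L : ℝ} (hL : 0 ≤ L) (hE : ∑ s ∈ J, f s ^ 2 ≤ 2 ^ k * L) :
    3 * |dot J f (pfw c k q w)| ≤ √L * (8 ^ k * M) := by
  obtain ⟨l, e1, e2⟩ := hw
  rw [pfw_congr e1, ← sum_a1, H736.dot_list_sum]
  have key : ∀ l : List Tri, 3 * |(l.map fun u => dot J f (a1 c k (q, u))).sum| ≤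
      √L * (8 ^ k * (l.map fun u => pw3 (cube3 k q) u).sum) := by
    intro l
    induction l with
    | nil => simp
    | cons a l ih =>
      rw [List.map_cons, List.sum_cons, List.map_cons, List.sum_cons]
      have h4 := Vale.Agent.P141.H628.first_lift h1 h2 h3 k (q, a) J f hL hE
      have h5 : wP (√L) (cube3 k q) a = √L * (8 ^ k * pw3 (cube3 k q) a) := by
        unfold wP
        rw [card_cube3]
        push_cast
        ring
      have h6 := abs_add_le (dot J f (a1 c k (q, a))) ((l.map fun u => dot J f (a1 c k (q, u))).sum)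
      have h7 : 3 * |dot J f (a1 c k (q, a))| ≤ √L * (8 ^ k * pw3 (cube3 k q) a) := h5 ▸ h4
      nlinarith
  refine (key l).trans ?_
  gcongr

/-- **The `L²` norm of the push-forward.** -/
theorem dot_pfw_self_le {c : Pt} (h1 : c.1 ≠ 0) (h2 : c.2.1 ≠ 0) (h3 : c.2.2 ≠ 0)
    (hw : Rep k q M w) (J : Finset ℤ) :
    dot J (pfw c k q w) (pfw c k q w) ≤ (2 ^ k)⁻¹ * (8 ^ k * M) ^ 2 / 9 := by
  set E := dot J (pfw c k q w) (pfw c k q w) with hE
  have hp : (0 : ℝ) < 2 ^ k := by positivity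
  have hE0 : 0 ≤ E := dot_self_nonneg _ _
  have hL : 0 ≤ E / 2 ^ k := div_nonneg hE0 hp.le
  have h := dot_pfw_le h1 h2 h3 hw J (pfw c k q w) hL (by
    rw [mul_div_cancel₀ _ hp.ne', hE]
    unfold dot
    exact le_of_eq (sum_congr rfl fun s _ => by ring))
  rw [← hE, abs_of_nonneg hE0] at h
  rcases hE0.eq_or_lt with h0 | h0
  · rw [← h0]; positivity
  · have h4 : (3 * E) ^ 2 ≤ (√(E / 2 ^ k) * (8 ^ k * M)) ^ 2 :=
      pow_le_pow_left₀ (by positivity) h 2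
    rw [mul_pow (√(E / 2 ^ k)), Real.sq_sqrt hL] at h4
    have h5 : E * (9 * E) ≤ E * ((2 ^ k)⁻¹ * (8 ^ k * M) ^ 2) := by
      calc E * (9 * E) = (3 * E) ^ 2 := by ring
        _ ≤ _ := h4
        _ = _ := by field_simp
    have h6 := le_of_mul_le_mul_left h5 h0
    linarith

/-- **The floor `l2` of the test of a representation.** -/
theorem l2_pfw_le {c : Pt} (h1 : c.1 ≠ 0) (h2 : c.2.1 ≠ 0) (h3 : c.2.2 ≠ 0) (hw : Rep k q M w)
    {σ : ℤ} {l : ℕ} (hl : l ≤ k) (s : ℤ) :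
    l2 ((gr 7 σ).cube l s) ((4 ^ k : ℝ)⁻¹ • pfw c k q w) ≤ 4 * (2 ^ k * M) := by
  have hM := hw.nonneg
  have h := dot_pfw_self_le h1 h2 h3 hw ((gr 7 σ).cube l s)
  have e1 : dot ((gr 7 σ).cube l s) ((4 ^ k : ℝ)⁻¹ • pfw c k q w) ((4 ^ k : ℝ)⁻¹ • pfw c k q w) =
      ((4 ^ k : ℝ)⁻¹) ^ 2 * dot ((gr 7 σ).cube l s) (pfw c k q w) (pfw c k q w) := by
    unfold dot
    rw [mul_sum]
    refine sum_congr rfl fun y _ => ?_
    rw [Pi.smul_apply, smul_eq_mul]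
    ring
  have h5 : l2 ((gr 7 σ).cube l s) ((4 ^ k : ℝ)⁻¹ • pfw c k q w) ^ 2 ≤ (4 * (2 ^ k * M)) ^ 2 := by
    rw [l2_sq, e1, card_gr]
    have h6 : ((2 ^ (l + 7) : ℕ) : ℝ) ≤ 128 * 2 ^ k := by
      push_cast
      rw [pow_add]
      have : (2 : ℝ) ^ l ≤ 2 ^ k := pow_le_pow_right₀ (by norm_num) hl
      nlinarith
    have e8 : (8 : ℝ) ^ k = 2 ^ k * 4 ^ k := by rw [← mul_pow]; norm_num
    have e4 : (4 : ℝ) ^ k = 2 ^ k * 2 ^ k := by rw [← mul_pow]; norm_num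
    have hp : (0 : ℝ) < 2 ^ k := by positivity
    have hp4 : (0 : ℝ) < 4 ^ k := by positivity
    calc ((2 ^ (l + 7) : ℕ) : ℝ) * (((4 ^ k : ℝ)⁻¹) ^ 2 *
          dot ((gr 7 σ).cube l s) (pfw c k q w) (pfw c k q w)) ≤
        (128 * 2 ^ k) * (((4 ^ k : ℝ)⁻¹) ^ 2 * ((2 ^ k)⁻¹ * (8 ^ k * M) ^ 2 / 9)) := by
          have := dot_self_nonneg ((gr 7 σ).cube l s) (pfw c k q w)
          gcongr
      _ = 128 / 9 * (2 ^ k * M) ^ 2 := by
          rw [e8]
          field_simp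
      _ ≤ (4 * (2 ^ k * M)) ^ 2 := by
          have := sq_nonneg ((2 : ℝ) ^ k * M)
          nlinarith
  exact (abs_le_of_sq_le_sq' h5 (by positivity)).2

/-! ### The tests of one cell -/

/-- **One cell**: the pairing with the push-forward of a represented function. -/
theorem test_rep (p : Par) {σ : ℤ} {r : Fin 4} {s : ℤ} {F : ℤ → ℝ} {A : ℝ} (hA : 0 ≤ A)
    (hF : ∀ m, |dot ((gr 7 σ).cube k s) F ((p.tot (gfL σ r) r).a k m)| ≤
      A * (p.tot (gfL σ r) r).W k ((gr 7 σ).cube k s) m)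
    (hw : Rep k q M w) {P : ℝ}
    (hP : ∀ (z : Fin 4) (o : ℤ), o = 1 ∨ o = -1 →
      cost (kap σ p.t p.t_pos p.E p.E_pos.le z) o r (pfw (fc r) k q w) k ((gr 7 σ).cube k s) ≤ P) :
    |dot ((gr 7 σ).cube k s) F (pfw (fc r) k q w)| ≤
      A * (8 * p.θ * P + (4 * p.φ + p.φ') * (8 ^ k * M)) := by
  have hM := hw.nonneg
  obtain ⟨l, e1, e2⟩ := id hw
  have hr : (fc r).1 ≠ 0 ∧ (fc r).2.1 ≠ 0 ∧ (fc r).2.2 ≠ 0 := by
    fin_cases r <;> decide
  have h1 := hF (Sum.inr (k, q, l))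
  change |dot ((gr 7 σ).cube k s) F ((p.gen (gfL σ r) r).toC.a k (k, q, l))| ≤
    A * (p.θ * (p.cw σ r).cst (psg (fc r) (k, q, l)) k ((gr 7 σ).cube k s) +
      p.φ * l2 ((gr 7 σ).cube k s) (psg (fc r) (k, q, l)) +
      p.φ' * lsc 7 σ (fc r) k ((gr 7 σ).cube k s) (k, q, l)) at h1
  rw [Vale.Agent.P141.H736.PSys.toC_a,
    if_pos (show (p.gen (gfL σ r) r).live k (k, q, l) from le_refl k)] at h1
  change |dot ((gr 7 σ).cube k s) F (psg (fc r) (k, q, l))| ≤ _ at h1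
  rw [psg_eq e1] at h1
  have p4 : (0 : ℝ) < 4 ^ k := by positivity
  have e3 : dot ((gr 7 σ).cube k s) F ((4 ^ k : ℝ)⁻¹ • pfw (fc r) k q w) =
      (4 ^ k : ℝ)⁻¹ * dot ((gr 7 σ).cube k s) F (pfw (fc r) k q w) := by
    unfold dot
    rw [mul_sum]
    refine sum_congr rfl fun y _ => ?_
    rw [Pi.smul_apply, smul_eq_mul]
    ring
  rw [e3, abs_mul, abs_of_pos (inv_pos.2 p4), inv_mul_le_iff₀ p4] at h1
  -- the three parts
  have c1 : (p.cw σ r).cst ((4 ^ k : ℝ)⁻¹ • pfw (fc r) k q w) k ((gr 7 σ).cube k s) ≤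
      (4 ^ k : ℝ)⁻¹ * (8 * P) := by
    refine ((p.cw σ r).cst_smul_le _ _ k s).trans ?_
    rw [abs_of_pos (inv_pos.2 p4)]
    refine mul_le_mul_of_nonneg_left ?_ (inv_pos.2 p4).le
    unfold CW.cst
    have : ∀ a : Fin 4 × Bool, cost ((p.cw σ r).κ a) ((p.cw σ r).o a) r (pfw (fc r) k q w) k
        ((gr 7 σ).cube k s) / (p.cw σ r).nrm a ≤ P := by
      intro a
      show _ / (1 : ℝ) ≤ P
      rw [div_one]
      exact hP a.1 _ ((p.cw σ r).ho a)
    refine (sum_le_card_nsmul _ _ _ fun a _ => this a).trans (le_of_eq ?_)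
    rw [card_univ, Fintype.card_prod, Fintype.card_fin, Fintype.card_bool, nsmul_eq_mul]
    norm_num
  have c2 := l2_pfw_le hr.1 hr.2.1 hr.2.2 hw (σ := σ) (le_refl k) s
  have c3 : lsc 7 σ (fc r) k ((gr 7 σ).cube k s) (k, q, l) ≤ 2 ^ k * M := by
    refine (lsc_le k s (k, q, l)).trans ?_
    exact mul_le_mul_of_nonneg_left e2 (by positivity)
  have hθ := p.θ_pos.le
  have hφ := p.φ_pos.le
  have hφ' := p.φ'_nn
  refine h1.trans ?_
  calc (4 : ℝ) ^ k * (A * (p.θ * (p.cw σ r).cst ((4 ^ k : ℝ)⁻¹ • pfw (fc r) k q w) k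
          ((gr 7 σ).cube k s) +
        p.φ * l2 ((gr 7 σ).cube k s) ((4 ^ k : ℝ)⁻¹ • pfw (fc r) k q w) +
        p.φ' * lsc 7 σ (fc r) k ((gr 7 σ).cube k s) (k, q, l)))
      ≤ 4 ^ k * (A * (p.θ * ((4 ^ k : ℝ)⁻¹ * (8 * P)) + p.φ * (4 * (2 ^ k * M)) +
        p.φ' * (2 ^ k * M))) := by gcongr
    _ = _ := by
        have e8 : (8 : ℝ) ^ k = 2 ^ k * 4 ^ k := by rw [← mul_pow]; norm_num
        rw [e8]
        field_simp
        ring

/-- **The permuted forms of the slot `r`.** -/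
def Fm (r : Fin 4) (c : Pt) : Prop :=
  ∀ Φ : Pt → Prop, Φ (fc r) → (∀ d, Φ d → Φ (t12 d)) → (∀ d, Φ d → Φ (t23 d)) → Φ c

theorem Fm.base (r : Fin 4) : Fm r (fc r) := fun _ h _ _ => h

theorem Fm.t12 {r : Fin 4} {c : Pt} (h : Fm r c) : Fm r (t12 c) :=
  fun Φ h0 h1 h2 => h1 _ (h Φ h0 h1 h2)

theorem Fm.t23 {r : Fin 4} {c : Pt} (h : Fm r c) : Fm r (t23 c) :=
  fun Φ h0 h1 h2 => h2 _ (h Φ h0 h1 h2)

theorem fm_cf (i : Fin 4) (p : Fin 3) : Fm (jf i p) (cf i p) := by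
  fin_cases i <;> fin_cases p
  · exact Fm.base 1
  · exact Fm.base 2
  · exact Fm.base 3
  · exact Fm.base 0
  · exact (Fm.base 2).t12
  · exact (Fm.base 3).t12
  · exact (Fm.base 1).t12
  · exact (Fm.base 0).t12
  · exact (Fm.base 3).t23.t12.t23
  · exact (Fm.base 2).t23.t12
  · exact (Fm.base 0).t23.t12.t23
  · exact (Fm.base 1).t23.t12.t23

/-- **One cell, permuted forms.** -/
theorem test_fm (p : Par) {σ : ℤ} {r : Fin 4} {s : ℤ} {F : ℤ → ℝ} {A : ℝ} (hA : 0 ≤ A)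
    (hF : ∀ m, |dot ((gr 7 σ).cube k s) F ((p.tot (gfL σ r) r).a k m)| ≤
      A * (p.tot (gfL σ r) r).W k ((gr 7 σ).cube k s) m)
    {c : Pt} (hc : Fm r c) (hw : Rep k q M w) {P : ℝ}
    (hP : ∀ (z : Fin 4) (o : ℤ), o = 1 ∨ o = -1 →
      cost (kap σ p.t p.t_pos p.E p.E_pos.le z) o r (pfw c k q w) k ((gr 7 σ).cube k s) ≤ P) :
    |dot ((gr 7 σ).cube k s) F (pfw c k q w)| ≤
      A * (8 * p.θ * P + (4 * p.φ + p.φ') * (8 ^ k * M)) := by
  revert w q hw hP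
  refine hc (fun c => ∀ {q : Pt} {w : Pt → ℝ}, Rep k q M w →
    (∀ (z : Fin 4) (o : ℤ), o = 1 ∨ o = -1 →
      cost (kap σ p.t p.t_pos p.E p.E_pos.le z) o r (pfw c k q w) k ((gr 7 σ).cube k s) ≤ P) →
    |dot ((gr 7 σ).cube k s) F (pfw c k q w)| ≤
      A * (8 * p.θ * P + (4 * p.φ + p.φ') * (8 ^ k * M))) ?_ ?_ ?_
  · intro q w hw hP
    exact test_rep p hA hF hw hP
  · intro d hd q w hw hP
    rw [pfw_t12] at hP ⊢
    exact hd (rep_t12 hw) hP
  · intro d hd q w hw hP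
    rw [pfw_t23] at hP ⊢
    exact hd (rep_t23 hw) hP

/-! ### Composite atoms -/

section comp

variable {κ1 κ2 κ3 : Type*} [Fintype κ1] [Fintype κ2] [Fintype κ3]

/-- **The representation of a composite atom**: the mean over the signs. -/
theorem rep_catm (k : ℕ) (q : Pt) (a : κ1 → κ2 → ℤ × ℤ → ℝ) (b : κ1 → κ3 → ℤ × ℤ → ℝ)
    (c : κ2 → κ3 → ℤ × ℤ → ℝ) :
    Rep k q (6 * pw3 (cube3 k q) (vt a b c)) (catm a b c) := by
  classical
  set N : ℝ := ((univ : Finset (Sg κ1 κ2 κ3)).card : ℝ) with hN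
  have hN0 : 0 ≤ N⁻¹ := inv_nonneg.2 (Nat.cast_nonneg _)
  refine ⟨((univ : Finset (Sg κ1 κ2 κ3)).toList).map fun s => sm1 N⁻¹ (rt a b c s),
    fun y _ => ?_, ?_⟩
  · rw [List.map_map, catm_eq]
    unfold avg
    rw [mul_sum, ← Finset.sum_map_toList]
    congr 1
    exact List.map_congr_left fun s _ => (atm_sm1 _ _ _).symm
  · rw [List.map_map]
    refine le_trans (le_of_eq ?_) (avg_pw3 (cube3 k q) a b c)
    unfold avg
    rw [mul_sum, ← Finset.sum_map_toList]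
    congr 1
    refine List.map_congr_left fun s _ => ?_
    rw [Function.comp_apply, pw3_sm1, abs_of_nonneg hN0]

end comp

/-! ### The centre atoms of 971 -/

section centre

variable {κ : Type} [Fintype κ]

/-- the centre atom in the coordinates (fibre, split side, other side) -/
def cwf (a : ℤ → ℤ → ℝ) (u v : ℤ → ℤ → EuclideanSpace ℝ κ) (y : Pt) : ℝ :=
  cen a u v (y.2.1, y.2.2, y.1)

theorem cwf_eq (a : ℤ → ℤ → ℝ) (u v : ℤ → ℤ → EuclideanSpace ℝ κ) :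
    cwf a u v = catm1 (fun p => a p.1 p.2) (fun n p => u p.1 p.2 n) (fun n p => v p.1 p.2 n) := by
  funext y
  unfold cwf cen catm1
  rw [PiLp.inner_apply, mul_sum]
  refine sum_congr rfl fun n _ => ?_
  unfold atm e12 e13 e23
  simp only [RCLike.inner_apply, conj_trivial]
  ring

theorem vn_eu (u : ℤ → ℤ → EuclideanSpace ℝ κ) (p : ℤ × ℤ) :
    vn (fun n (p : ℤ × ℤ) => u p.1 p.2 n) p = ‖u p.1 p.2‖ := by
  unfold vn
  rw [EuclideanSpace.norm_eq]
  congr 1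
  exact sum_congr rfl fun n _ => by rw [Real.norm_eq_abs, sq_abs]

theorem iv_ne (k : ℕ) (m : ℤ) : (iv k m).Nonempty :=
  ⟨m, Vale.Agent.P141.PL.H315.mem_iv.2 rfl⟩

theorem pw3_vt1 (Q : Finset Pt) (v u : κ → ℤ × ℤ → ℝ) (g : ℤ × ℤ → ℝ) :
    pw3 Q (vt (fun n (_ : Unit) => v n) (fun n (_ : Unit) => u n) (fun _ _ : Unit => g)) =
      pw3 Q (vn v, vn u, g) :=
  H572.pw3_congr Q (H572.vn2_right v) (H572.vn2_right u) (H572.vn2_unit g)

/-- the representation of a centre atom, mass in the norms -/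
theorem rep_cwf (k : ℕ) (q : Pt) (a : ℤ → ℤ → ℝ) (u v : ℤ → ℤ → EuclideanSpace ℝ κ) :
    Rep k q (6 * pw3 (cube3 k q) (fun p => ‖u p.1 p.2‖, fun p => ‖v p.1 p.2‖, fun p => a p.1 p.2))
      (cwf a u v) := by
  have hR := rep_catm k q (fun n (_ : Unit) => fun p : ℤ × ℤ => u p.1 p.2 n)
    (fun n (_ : Unit) => fun p : ℤ × ℤ => v p.1 p.2 n)
    (fun _ _ : Unit => fun p : ℤ × ℤ => a p.1 p.2)
  rw [pw3_vt1 (cube3 k q) (fun n p => u p.1 p.2 n) (fun n p => v p.1 p.2 n)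
    (fun p => a p.1 p.2)] at hR
  rw [← catm1_eq (fun p : ℤ × ℤ => a p.1 p.2) (fun n p => u p.1 p.2 n)
    (fun n p => v p.1 p.2 n), ← cwf_eq] at hR
  have eu : vn (fun n (p : ℤ × ℤ) => u p.1 p.2 n) = fun p => ‖u p.1 p.2‖ := funext (vn_eu u)
  have ev : vn (fun n (p : ℤ × ℤ) => v p.1 p.2 n) = fun p => ‖v p.1 p.2‖ := funext (vn_eu v)
  rw [eu, ev] at hR
  exact hR

theorem nN_le_of {X : Type*} {Q : Finset X} {f : X → ℝ} {h p e : ℝ} (hh : 0 ≤ h) (hp : 0 ≤ p)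
    (h1 : ∀ x ∈ Q, |f x| ≤ h * √e) (h2 : n2 Q f ≤ √e * p) :
    nN Q f ≤ √e * √(√h * (p * √p)) := by
  have h3 := Vale.Agent.P141.H419.nN_four_le (mul_nonneg hh (Real.sqrt_nonneg e)) h1
  have hx : 0 ≤ √h * (p * √p) := by positivity
  have h4 : nN Q f ^ 4 ≤ (√e * √(√h * (p * √p))) ^ 4 := by
    refine h3.trans ?_
    calc h * √e * n2 Q f ^ 3 ≤ h * √e * (√e * p) ^ 3 := by
          have := n2_nonneg Q f
          gcongr
      _ = √e ^ 4 * (h * p ^ 3) := by ring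
      _ = (√e * √(√h * (p * √p))) ^ 4 := by
          have e1 : √(√h * (p * √p)) ^ 4 = (√h * (p * √p)) ^ 2 := by
            rw [show √(√h * (p * √p)) ^ 4 = (√(√h * (p * √p)) ^ 2) ^ 2 by ring, Real.sq_sqrt hx]
          rw [mul_pow, e1]
          have e2 : (√h * (p * √p)) ^ 2 = √h ^ 2 * (p ^ 2 * √p ^ 2) := by ring
          rw [e2, Real.sq_sqrt hh, Real.sq_sqrt hp]
          ring
  exact (pow_le_pow_iff_left₀ (nN_nonneg Q f) (by positivity) (by norm_num)).1 h4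

/-- **The representation of a centre atom**: mass `18 e h^(1/2) p^(5/2)`. -/
theorem rep_cen {h p e K : ℝ} (hh : 0 ≤ h) (hp : 0 ≤ p) (he : 0 ≤ e) {a : ℤ → ℤ → ℝ}
    {u v : ℤ → ℤ → EuclideanSpace ℝ κ}
    (H : Cen (iv k q.2.1) (iv k q.2.2) (iv k q.1) h p e K a u v) :
    Rep k q (18 * (e * (√h * (p ^ 2 * √p)))) (cwf a u v) := by
  have hA : (iv k q.1).Nonempty := iv_ne k q.1
  have hB : (iv k q.2.1).Nonempty := iv_ne k q.2.1
  have hC : (iv k q.2.2).Nonempty := iv_ne k q.2.2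
  refine (rep_cwf k q a u v).mono ?_
  have e1 : pw3 (cube3 k q) (fun p : ℤ × ℤ => ‖u p.1 p.2‖, fun p : ℤ × ℤ => ‖v p.1 p.2‖,
      fun p : ℤ × ℤ => a p.1 p.2) = _ := Vale.Agent.P141.H419.pw3_box hA hB hC _
  rw [e1]
  dsimp only
  set Y := √(√h * (p * √p)) with hY
  have hx : 0 ≤ √h * (p * √p) := by positivity
  have hY2 : Y ^ 2 = √h * (p * √p) := Real.sq_sqrt hx
  have hse := Real.sq_sqrt he
  have hse0 := Real.sqrt_nonneg e
  -- the norms
  have au : ∀ x ∈ iv k q.1 ×ˢ iv k q.2.1, |‖u x.1 x.2‖| ≤ h * √e := by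
    intro x hx
    obtain ⟨x1, x2⟩ := mem_product.1 hx
    rw [abs_norm]
    refine (pow_le_pow_iff_left₀ (norm_nonneg _) (by positivity) two_ne_zero).1 ?_
    rw [mul_pow, hse]
    exact H.u_le _ x1 _ x2
  have av : ∀ x ∈ iv k q.1 ×ˢ iv k q.2.2, |‖v x.1 x.2‖| ≤ h * √e := by
    intro x hx
    obtain ⟨x1, x2⟩ := mem_product.1 hx
    rw [abs_norm]
    refine (pow_le_pow_iff_left₀ (norm_nonneg _) (by positivity) two_ne_zero).1 ?_
    rw [mul_pow, hse]
    exact H.v_le _ x1 _ x2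
  have nu : n2 (iv k q.1 ×ˢ iv k q.2.1) (fun x => ‖u x.1 x.2‖) ≤ √e * p := by
    refine (pow_le_pow_iff_left₀ (n2_nonneg _ _) (by positivity) two_ne_zero).1 ?_
    rw [n2_sq, mul_pow, hse, H550.avg_prod]
    exact H.u_en
  have nv : n2 (iv k q.1 ×ˢ iv k q.2.2) (fun x => ‖v x.1 x.2‖) ≤ √e * p := by
    refine (pow_le_pow_iff_left₀ (n2_nonneg _ _) (by positivity) two_ne_zero).1 ?_
    rw [n2_sq, mul_pow, hse, H550.avg_prod]
    exact H.v_en
  have na : n2 (iv k q.2.1 ×ˢ iv k q.2.2) (fun x => a x.1 x.2) ≤ p := H.a_n2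
  have aa : ∀ x ∈ iv k q.2.1 ×ˢ iv k q.2.2, |a x.1 x.2| ≤ h := by
    intro x hx
    obtain ⟨x1, x2⟩ := mem_product.1 hx
    exact H.a_le _ x1 _ x2
  have NU := nN_le_of hh hp au nu
  have NV := nN_le_of hh hp av nv
  have NA : nN (iv k q.2.1 ×ˢ iv k q.2.2) (fun x => a x.1 x.2) ≤ Y := by
    have h1 := nN_le_of (e := 1) (Q := iv k q.2.1 ×ˢ iv k q.2.2) (f := fun x => a x.1 x.2) hh hp
      (fun x hx => by rw [Real.sqrt_one, mul_one]; exact aa x hx) (by rwa [Real.sqrt_one, one_mul])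
    rwa [Real.sqrt_one, one_mul] at h1
  rw [← hY] at NU NV
  have u0 := nN_nonneg (iv k q.1 ×ˢ iv k q.2.1) (fun x : ℤ × ℤ => ‖u x.1 x.2‖)
  have v0 := nN_nonneg (iv k q.1 ×ˢ iv k q.2.2) (fun x : ℤ × ℤ => ‖v x.1 x.2‖)
  have a0 := nN_nonneg (iv k q.2.1 ×ˢ iv k q.2.2) (fun x : ℤ × ℤ => a x.1 x.2)
  have u1 := n2_nonneg (iv k q.1 ×ˢ iv k q.2.1) (fun x : ℤ × ℤ => ‖u x.1 x.2‖)
  have v1 := n2_nonneg (iv k q.1 ×ˢ iv k q.2.2) (fun x : ℤ × ℤ => ‖v x.1 x.2‖)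
  have a1 := n2_nonneg (iv k q.2.1 ×ˢ iv k q.2.2) (fun x : ℤ × ℤ => a x.1 x.2)
  have hY0 : 0 ≤ Y := Real.sqrt_nonneg _
  have t1 : nN (iv k q.1 ×ˢ iv k q.2.1) (fun x : ℤ × ℤ => ‖u x.1 x.2‖) *
      nN (iv k q.1 ×ˢ iv k q.2.2) (fun x : ℤ × ℤ => ‖v x.1 x.2‖) *
      n2 (iv k q.2.1 ×ˢ iv k q.2.2) (fun x : ℤ × ℤ => a x.1 x.2) ≤ (√e * Y) * (√e * Y) * p := by
    gcongr
  have t2 : nN (iv k q.1 ×ˢ iv k q.2.1) (fun x : ℤ × ℤ => ‖u x.1 x.2‖) *
      nN (iv k q.2.1 ×ˢ iv k q.2.2) (fun x : ℤ × ℤ => a x.1 x.2) *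
      n2 (iv k q.1 ×ˢ iv k q.2.2) (fun x : ℤ × ℤ => ‖v x.1 x.2‖) ≤ (√e * Y) * Y * (√e * p) := by
    gcongr
  have t3 : nN (iv k q.1 ×ˢ iv k q.2.2) (fun x : ℤ × ℤ => ‖v x.1 x.2‖) *
      nN (iv k q.2.1 ×ˢ iv k q.2.2) (fun x : ℤ × ℤ => a x.1 x.2) *
      n2 (iv k q.1 ×ˢ iv k q.2.1) (fun x : ℤ × ℤ => ‖u x.1 x.2‖) ≤ (√e * Y) * Y * (√e * p) := by
    gcongr
  have e2 : (√e * Y) * (√e * Y) * p = e * (√h * (p ^ 2 * √p)) := by
    calc (√e * Y) * (√e * Y) * p = √e ^ 2 * Y ^ 2 * p := by ring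
      _ = _ := by rw [hse, hY2]; ring
  have e3 : (√e * Y) * Y * (√e * p) = e * (√h * (p ^ 2 * √p)) := by
    rw [← e2]; ring
  rw [e2] at t1
  rw [e3] at t2 t3
  linarith

end centre

/-! ### `GenU` from the price of the centre atoms -/

/-- the coordinates (side, side, fibre) of the lift -/
def rot (c : Pt) (J : Finset ℤ) (F : ℤ → ℝ) (x : ℤ × ℤ × ℤ) : ℝ := lft c J F (x.2.2, x.1, x.2.1)

theorem rot_t23 (c : Pt) (J : Finset ℤ) (F : ℤ → ℝ) (x : ℤ × ℤ × ℤ) :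
    rot (t23 c) J F x = rot c J F (x.2.1, x.1, x.2.2) := by
  unfold rot lft
  rw [Vale.Agent.P141.H414.el_t23]
  rfl

theorem avg_rot {A B C : Finset ℤ} (f : Pt → ℝ) :
    (avg (A ×ˢ B ×ˢ C) fun x => f (x.2.2, x.1, x.2.1)) = avg (C ×ˢ A ×ˢ B) f := by
  unfold avg
  have h1 : ((A ×ˢ B ×ˢ C).card : ℝ) = (C ×ˢ A ×ˢ B).card := by
    rw [card_product, card_product, card_product, card_product]
    push_cast
    ring
  rw [h1]
  congr 1
  refine sum_nbij' (fun x => (x.2.2, x.1, x.2.1)) (fun y => (y.2.1, y.2.2, y.1)) ?_ ?_ ?_ ?_ ?_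
  · intro x hx
    simp only [mem_product] at hx ⊢
    exact ⟨hx.2.2, hx.1, hx.2.1⟩
  · intro x hx
    simp only [mem_product] at hx ⊢
    exact ⟨hx.2.1, hx.2.2, hx.1⟩
  · intro x _; rfl
  · intro x _; rfl
  · intro x _; rfl

/-- the pairing on the box is the pairing on the line -/
theorem avg_rot_cen {κ : Type} [Fintype κ] (c : Pt) (J : Finset ℤ) (F : ℤ → ℝ) (k : ℕ) (q : Pt)
    (a : ℤ → ℤ → ℝ) (u v : ℤ → ℤ → EuclideanSpace ℝ κ) :
    (avg (iv k q.2.1 ×ˢ iv k q.2.2 ×ˢ iv k q.1) fun x => rot c J F x * cen a u v x) =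
      (8 ^ k : ℝ)⁻¹ * dot J F (pfw c k q (cwf a u v)) := by
  have h1 := avg_rot (A := iv k q.2.1) (B := iv k q.2.2) (C := iv k q.1)
    fun y => lft c J F y * cwf a u v y
  have h2 : (avg (iv k q.2.1 ×ˢ iv k q.2.2 ×ˢ iv k q.1) fun x => rot c J F x * cen a u v x) =
      avg (iv k q.1 ×ˢ iv k q.2.1 ×ˢ iv k q.2.2) fun y => lft c J F y * cwf a u v y := h1
  rw [h2, dot_pfw]
  have h3 : iv k q.1 ×ˢ iv k q.2.1 ×ˢ iv k q.2.2 = cube3 k q := rfl
  rw [h3]
  unfold avg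
  rw [card_cube3]
  push_cast
  rfl

/-- **The price of the centre atoms**: the split side is the second coordinate of the form `c`. -/
def PrC (p : Par) (σ : ℤ) (r : Fin 4) (k : ℕ) (s : ℤ) (c q : Pt) (δ e P : ℝ) : Prop :=
  ∀ (a : ℤ → ℤ → ℝ) (h n : ℝ), 0 ≤ h → 0 ≤ n →
    ∀ (κ : Type) [Fintype κ] (u v : ℤ → ℤ → EuclideanSpace ℝ κ),
      Cen (iv k q.2.1) (iv k q.2.2) (iv k q.1) h n e (δ ^ 2 * (h * n)) a u v →
      ∀ (z : Fin 4) (o : ℤ), o = 1 ∨ o = -1 →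
        cost (kap σ p.t p.t_pos p.E p.E_pos.le z) o r (pfw c k q (cwf a u v)) k
          ((gr 7 σ).cube k s) ≤ P * (8 ^ k * (e * (√h * (n ^ 2 * √n))))

/-- **`GenU` on a box of one cell**: the fibre is the first coordinate of the form `c`, the split
side the second one. -/
theorem genU_of_price (p : Par) {σ : ℤ} {r : Fin 4} {s : ℤ} {F : ℤ → ℝ} {A : ℝ} (hA : 0 ≤ A)
    (hF : ∀ m, |dot ((gr 7 σ).cube k s) F ((p.tot (gfL σ r) r).a k m)| ≤
      A * (p.tot (gfL σ r) r).W k ((gr 7 σ).cube k s) m)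
    {c : Pt} (hc : Fm r c) {δ e P ρ : ℝ} (he : 0 ≤ e)
    (hP : PrC p σ r k s c q δ e P)
    (hρ : A * (8 * p.θ * P + 18 * (4 * p.φ + p.φ')) ≤ ρ * δ) :
    GenU ρ δ e (iv k q.2.1) (iv k q.2.2) (iv k q.1) (rot c ((gr 7 σ).cube k s) F) := by
  intro a h n hh hn κ _ u v hcen
  have h1 := test_fm p hA hF hc (rep_cen (k := k) (q := q) hh hn he hcen)
    (P := P * (8 ^ k * (e * (√h * (n ^ 2 * √n))))) fun z o ho => hP a h n hh hn κ u v hcen z o ho
  rw [avg_rot_cen]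
  have p8 : (0 : ℝ) < 8 ^ k := by positivity
  have h2 := (le_abs_self _).trans h1
  set X : ℝ := e * (√h * (n ^ 2 * √n)) with hX
  have hX0 : 0 ≤ X := by rw [hX]; positivity
  calc (8 ^ k : ℝ)⁻¹ * dot ((gr 7 σ).cube k s) F (pfw c k q (cwf a u v))
      ≤ (8 ^ k : ℝ)⁻¹ * (A * (8 * p.θ * (P * (8 ^ k * X)) +
          (4 * p.φ + p.φ') * (8 ^ k * (18 * X)))) :=
        mul_le_mul_of_nonneg_left h2 (inv_pos.2 p8).le
    _ = A * (8 * p.θ * P + 18 * (4 * p.φ + p.φ')) * X := by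
        field_simp
    _ ≤ ρ * δ * X := mul_le_mul_of_nonneg_right hρ hX0
    _ = _ := by rw [hX]; ring

/-- **The other orientation of the box.** -/
theorem genU_of_price' (p : Par) {σ : ℤ} {r : Fin 4} {s : ℤ} {F : ℤ → ℝ} {A : ℝ} (hA : 0 ≤ A)
    (hF : ∀ m, |dot ((gr 7 σ).cube k s) F ((p.tot (gfL σ r) r).a k m)| ≤
      A * (p.tot (gfL σ r) r).W k ((gr 7 σ).cube k s) m)
    {c : Pt} (hc : Fm r c) {δ e P ρ : ℝ} (he : 0 ≤ e)
    (hP : PrC p σ r k s (t23 c) (t23 q) δ e P)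
    (hρ : A * (8 * p.θ * P + 18 * (4 * p.φ + p.φ')) ≤ ρ * δ) :
    GenU ρ δ e (iv k q.2.2) (iv k q.2.1) (iv k q.1)
      fun x => rot c ((gr 7 σ).cube k s) F (x.2.1, x.1, x.2.2) := by
  have h1 := genU_of_price (q := t23 q) p hA hF hc.t23 he hP hρ
  have h2 : rot (t23 c) ((gr 7 σ).cube k s) F =
      fun x => rot c ((gr 7 σ).cube k s) F (x.2.1, x.1, x.2.2) := by
    funext x
    exact rot_t23 c _ F x
  rw [h2] at h1
  exact h1

end

end Vale.Agent.P141.H437
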